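import Vale.Agent.P219.H732.Pos

/-!
# Sharp constants of Sobolev inequalities on model balls, two exponents
-/

open MeasureTheory Set Filter Topology
open scoped ENNReal NNReal

namespace Vale.Agent.P219.Co

/-- The sharp constant of the Sobolev inequality `C ‖φ‖_q ^ p ≤ ‖∇φ‖_p ^ p` for the Lipschitz
radial functions `φ(r)` on the geodesic ball of radius `R` of the `n`-dimensional space form of
curvature `κ`, vanishing on the boundary (`q = p`: first eigenvalue of the `p`-Laplacian). -/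
noncomputable def ballConst (n : ℕ) (κ p q R : ℝ) : ℝ≥0∞ :=
  ⨅ (φ : ℝ → ℝ) (_ : (∃ C : ℝ≥0, LipschitzWith C φ) ∧ (∀ r, R ≤ r → φ r = 0) ∧
      ∫⁻ r in Ioi (0 : ℝ), ENNReal.ofReal (|φ r| ^ q * modelArea n κ r) ≠ 0),
    (∫⁻ r in Ioi (0 : ℝ), ENNReal.ofReal (|deriv φ r| ^ p * modelArea n κ r)) /
      (∫⁻ r in Ioi (0 : ℝ), ENNReal.ofReal (|φ r| ^ q * modelArea n κ r)) ^ (p / q)

/-- A Sobolev inequality for Lipschitz functions which vanish beyond `R` extends to decreasing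
functions which are Lipschitz away from `0`. -/
theorem sobolev_ext {F A : ℝ → ℝ} {p q R : ℝ} (hp0 : 0 < p) (hq0 : 0 < q)
    (hA : Continuous A) (hA0 : ∀ r, 0 ≤ r → 0 ≤ A r)
    (hF : AntitoneOn F (Ioi 0)) (hF0 : ∀ r, 0 < r → 0 ≤ F r) (hFR : ∀ r, R ≤ r → 0 < r → F r = 0)
    (hLip : ∀ ε : ℝ, 0 < ε → ∃ C : ℝ≥0, LipschitzOnWith C F (Ici ε)) {Λ : ℝ≥0∞}
    (hl : ∀ φ : ℝ → ℝ, (∃ C : ℝ≥0, LipschitzWith C φ) → (∀ r, R ≤ r → φ r = 0) →
      Λ * (∫⁻ r in Ioi (0 : ℝ), ENNReal.ofReal (|φ r| ^ q * A r)) ^ (p / q) ≤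
        ∫⁻ r in Ioi (0 : ℝ), ENNReal.ofReal (|deriv φ r| ^ p * A r)) :
    Λ * (∫⁻ r in Ioi (0 : ℝ), ENNReal.ofReal (F r ^ q * A r)) ^ (p / q) ≤
      ∫⁻ r in Ioi (0 : ℝ), ENNReal.ofReal (|deriv F r| ^ p * A r) := by
  set e : ℕ → ℝ := fun k => 1 / ((k : ℝ) + 1) with hedef
  have he : ∀ k, 0 < e k := fun k => by positivity
  have he0 : Tendsto e atTop (𝓝 0) := tendsto_one_div_add_atTop_nhds_zero_nat
  have hanti : Antitone e := fun i j hij => by
    simp only [hedef]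
    exact one_div_le_one_div_of_le (by positivity) (by have : (i : ℝ) ≤ j := by exact_mod_cast hij
                                                       linarith)
  set φ : ℕ → ℝ → ℝ := fun k r => F (max r (e k)) with hφdef
  have hmpos : ∀ k r, 0 < max r (e k) := fun k r => lt_max_of_lt_right (he k)
  have hφL : ∀ k, ∃ C : ℝ≥0, LipschitzWith C (φ k) := by
    intro k
    obtain ⟨C, hC⟩ := hLip (e k) (he k)
    refine ⟨C, LipschitzWith.of_dist_le_mul fun x y => ?_⟩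
    have h1 := hC.dist_le_mul (max x (e k)) (mem_Ici.2 (le_max_right _ _)) (max y (e k))
      (mem_Ici.2 (le_max_right _ _))
    refine h1.trans (mul_le_mul_of_nonneg_left ?_ C.2)
    rw [Real.dist_eq, Real.dist_eq]
    exact abs_max_sub_max_le_abs x y (e k)
  have hφR : ∀ k r, R ≤ r → φ k r = 0 := fun k r hr =>
    hFR _ (hr.trans (le_max_left _ _)) (hmpos k r)
  have hφc : ∀ k, Continuous (φ k) := fun k => (hφL k).choose_spec.continuous
  have hφ0 : ∀ k r, 0 ≤ φ k r := fun k r => hF0 _ (hmpos k r)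
  have hone : ∀ k, Λ * (∫⁻ r in Ioi (0 : ℝ), ENNReal.ofReal (|φ k r| ^ q * A r)) ^ (p / q) ≤
      ∫⁻ r in Ioi (0 : ℝ), ENNReal.ofReal (|deriv F r| ^ p * A r) := by
    intro k
    refine (hl (φ k) (hφL k) (hφR k)).trans (lintegral_mono_ae ?_)
    have hne : ∀ᵐ r ∂(volume.restrict (Ioi (0 : ℝ))), r ≠ e k := by
      refine ae_restrict_of_ae ?_
      rw [ae_iff]
      simp
    filter_upwards [hne, self_mem_ae_restrict measurableSet_Ioi] with r hr hr0
    refine ENNReal.ofReal_le_ofReal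
      (mul_le_mul_of_nonneg_right ?_ (hA0 r (le_of_lt (mem_Ioi.1 hr0))))
    rcases lt_or_gt_of_ne hr with h1 | h1
    · have : φ k =ᶠ[𝓝 r] fun _ => F (e k) := by
        filter_upwards [Iio_mem_nhds h1] with x hx
        simp only [hφdef, max_eq_right (le_of_lt (mem_Iio.1 hx))]
      rw [this.deriv_eq, deriv_const, abs_zero, Real.zero_rpow hp0.ne']
      exact Real.rpow_nonneg (abs_nonneg _) _
    · have : φ k =ᶠ[𝓝 r] F := by
        filter_upwards [Ioi_mem_nhds h1] with x hx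
        simp only [hφdef, max_eq_left (le_of_lt (mem_Ioi.1 hx))]
      rw [this.deriv_eq]
  have hlim : Tendsto (fun k => ∫⁻ r in Ioi (0 : ℝ), ENNReal.ofReal (|φ k r| ^ q * A r)) atTop
      (𝓝 (∫⁻ r in Ioi (0 : ℝ), ENNReal.ofReal (F r ^ q * A r))) := by
    refine lintegral_tendsto_of_tendsto_of_monotone ?_ ?_ ?_
    · intro k
      have : Continuous fun r => |φ k r| ^ q * A r :=
        ((hφc k).abs.rpow_const fun r => Or.inr hq0.le).mul hA
      exact (ENNReal.continuous_ofReal.comp this).measurable.aemeasurable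
    · filter_upwards [self_mem_ae_restrict measurableSet_Ioi] with r hr
      intro i j hij
      refine ENNReal.ofReal_le_ofReal (mul_le_mul_of_nonneg_right ?_ (hA0 r (le_of_lt hr)))
      refine Real.rpow_le_rpow (abs_nonneg _) ?_ hq0.le
      rw [abs_of_nonneg (hφ0 i r), abs_of_nonneg (hφ0 j r)]
      exact hF (hmpos j r) (hmpos i r) (max_le_max le_rfl (hanti hij))
    · filter_upwards [self_mem_ae_restrict measurableSet_Ioi] with r hr
      refine tendsto_const_nhds.congr' ?_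
      filter_upwards [he0.eventually (gt_mem_nhds (show (0 : ℝ) < r from hr))] with k hk
      simp only [hφdef, max_eq_left hk.le, abs_of_nonneg (hF0 r hr)]
  have hpq : 0 < p / q := div_pos hp0 hq0
  rcases eq_or_ne Λ ∞ with hΛ | hΛ
  · subst hΛ
    by_cases h0 : ∫⁻ r in Ioi (0 : ℝ), ENNReal.ofReal (F r ^ q * A r) = 0
    · rw [h0, ENNReal.zero_rpow_of_pos hpq, mul_zero]; exact zero_le
    · have hpos : 0 < ∫⁻ r in Ioi (0 : ℝ), ENNReal.ofReal (F r ^ q * A r) :=
        pos_iff_ne_zero.2 h0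
      obtain ⟨k, hk⟩ := (hlim.eventually (lt_mem_nhds hpos)).exists
      have h3 := hone k
      have h4 : (∫⁻ r in Ioi (0 : ℝ), ENNReal.ofReal (|φ k r| ^ q * A r)) ^ (p / q) ≠ 0 := by
        intro hcon
        rcases ENNReal.rpow_eq_zero_iff.1 hcon with h5 | h5
        · exact hk.ne' h5.1
        · linarith [h5.2]
      rw [ENNReal.top_mul h4] at h3
      rw [top_le_iff.1 h3]
      exact le_top
  · exact le_of_tendsto (ENNReal.Tendsto.const_mul
      ((ENNReal.continuous_rpow_const.tendsto _).comp hlim) (Or.inr hΛ)) (Eventually.of_forall hone)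

/-- the defining inequality of `ballConst` -/
theorem ballConst_mul_le {n : ℕ} {κ p q R : ℝ} (hp0 : 0 < p) (hq0 : 0 < q) {φ : ℝ → ℝ}
    (h1 : ∃ C : ℝ≥0, LipschitzWith C φ) (h2 : ∀ r, R ≤ r → φ r = 0) :
    ballConst n κ p q R *
      (∫⁻ r in Ioi (0 : ℝ), ENNReal.ofReal (|φ r| ^ q * modelArea n κ r)) ^ (p / q) ≤
      ∫⁻ r in Ioi (0 : ℝ), ENNReal.ofReal (|deriv φ r| ^ p * modelArea n κ r) := by
  by_cases h0 : ∫⁻ r in Ioi (0 : ℝ), ENNReal.ofReal (|φ r| ^ q * modelArea n κ r) = 0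
  · rw [h0, ENNReal.zero_rpow_of_pos (div_pos hp0 hq0), mul_zero]; exact zero_le
  · exact ENNReal.mul_le_of_le_div (iInf₂_le φ ⟨h1, h2, h0⟩)

/-- The one-dimensional sharp Sobolev inequality (`q = p`: Faber-Krahn). -/
theorem fk_1d' {n : ℕ} {κ p q R : ℝ} (hp : 0 < p) (hq : 0 < q) (hR : 0 < R)
    (hAc : Continuous (modelArea n κ)) (hAm : MonotoneOn (modelArea n κ) (Ici 0))
    (hA0 : ∀ r, 0 < r → 0 < modelArea n κ r)
    (hV : ∀ r, HasDerivAt (modelVol n κ) (modelArea n κ r) r) {F : ℝ → ℝ}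
    (hF0 : ∀ r, 0 ≤ r → 0 ≤ F r) (hF : AntitoneOn F (Ici 0)) (hFR : ∀ r, R ≤ r → F r = 0)
    (hlip : ∃ L, ∀ r s, 0 < r → r ≤ s →
      modelArea n κ r * (F r - F s) ≤ L * (modelVol n κ s - modelVol n κ r)) :
    ballConst n κ p q R *
      (∫⁻ r in Ioi (0 : ℝ), ENNReal.ofReal (F r ^ q * modelArea n κ r)) ^ (p / q) ≤
      ∫⁻ r in Ioi (0 : ℝ), ENNReal.ofReal (|deriv F r| ^ p * modelArea n κ r) := by
  obtain ⟨L, hL⟩ := hlip
  have hA0' : ∀ r, 0 ≤ r → 0 ≤ modelArea n κ r := by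
    intro r hr
    rcases hr.eq_or_lt with h | h
    · rw [← h]
      refine ge_of_tendsto ((hAc.tendsto 0).mono_left nhdsWithin_le_nhds : Tendsto _
        (𝓝[>] (0 : ℝ)) _) ?_
      filter_upwards [self_mem_nhdsWithin] with x hx using (hA0 x hx).le
    · exact (hA0 r h).le
  exact sobolev_ext hp hq hAc hA0' (hF.mono Ioi_subset_Ici_self) (fun r hr => hF0 r hr.le)
    (fun r hr _ => hFR r hr)
    (fun ε hε => lipschitzOn_of_layer hR hAm hA0 hV hF hFR hL hε)
    (fun φ h1 h2 => ballConst_mul_le hp hq h1 h2)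

/-- The sharp constants are finite. -/
theorem ballConst_ne_top {n : ℕ} {κ p q R : ℝ} (hp : 1 ≤ p) (hq : 0 < q) (hR : 0 < R)
    (hAc : Continuous (modelArea n κ))
    (hAm : MonotoneOn (modelArea n κ) (Ici 0)) (hA0 : ∀ r, 0 < r → 0 < modelArea n κ r) :
    ballConst n κ p q R ≠ ∞ := by
  set φ : ℝ → ℝ := fun r => max (R - r) 0 with hφ
  have h1 : LipschitzWith 1 φ := by
    have : LipschitzWith 1 fun r : ℝ => R - r := by
      refine LipschitzWith.of_dist_le_mul fun x y => ?_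
      rw [Real.dist_eq, Real.dist_eq, NNReal.coe_one, one_mul,
        show R - x - (R - y) = -(x - y) by ring, abs_neg]
    exact this.max_const 0
  have h2 : ∀ r, R ≤ r → φ r = 0 := fun r hr => max_eq_right (by linarith)
  have h3 : ∫⁻ r in Ioi (0 : ℝ), ENNReal.ofReal (|φ r| ^ q * modelArea n κ r) ≠ 0 := by
    intro h0
    have hm : Measurable fun r => ENNReal.ofReal (|φ r| ^ q * modelArea n κ r) := by
      have : Continuous fun r => |φ r| ^ q * modelArea n κ r :=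
        (h1.continuous.abs.rpow_const fun r => Or.inr hq.le).mul hAc
      exact (ENNReal.continuous_ofReal.comp this).measurable
    rw [lintegral_eq_zero_iff hm] at h0
    have h4 : ∀ᵐ r ∂(volume.restrict (Ioo (0 : ℝ) R)), False := by
      have hsub : Ioo (0 : ℝ) R ⊆ Ioi 0 := fun x hx => hx.1
      have h5 := ae_restrict_of_ae_restrict_of_subset hsub h0
      filter_upwards [h5, self_mem_ae_restrict measurableSet_Ioo] with r hr hr2
      have h6 : 0 < |φ r| ^ q * modelArea n κ r := by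
        have : 0 < φ r := lt_max_of_lt_left (by linarith [hr2.2])
        exact mul_pos (Real.rpow_pos_of_pos (abs_pos.2 this.ne') _) (hA0 r hr2.1)
      simp only [Pi.zero_apply, ENNReal.ofReal_eq_zero] at hr
      linarith
    rw [ae_iff] at h4
    simp at h4
    linarith
  have h4 : ballConst n κ p q R ≤
      (∫⁻ r in Ioi (0 : ℝ), ENNReal.ofReal (|deriv φ r| ^ p * modelArea n κ r)) /
      (∫⁻ r in Ioi (0 : ℝ), ENNReal.ofReal (|φ r| ^ q * modelArea n κ r)) ^ (p / q) :=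
    iInf₂_le φ ⟨⟨1, h1⟩, h2, h3⟩
  refine ne_top_of_le_ne_top ?_ h4
  refine ENNReal.div_ne_top (energy_ne_top hp hR hAm ⟨1, h1⟩ h2) fun hcon => ?_
  rcases ENNReal.rpow_eq_zero_iff.1 hcon with h5 | h5
  · exact h3 h5.1
  · have : 0 < p / q := div_pos (by linarith) hq
    linarith [h5.2]

/-- Hölder's inequality with a constant factor -/
theorem lintegral_rpow_le {α : Type*} [MeasurableSpace α] (μ : Measure α) {g : α → ℝ≥0∞}
    (hg : AEMeasurable g μ) {s : ℝ} (hs : 1 ≤ s) :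
    (∫⁻ x, g x ∂μ) ^ s ≤ μ univ ^ (s - 1) * ∫⁻ x, g x ^ s ∂μ := by
  rcases hs.eq_or_lt with h1 | h1
  · subst h1
    simp
  · have hq : s.HolderConjugate (Real.conjExponent s) := Real.HolderConjugate.conjExponent h1
    have h2 := ENNReal.lintegral_mul_le_Lp_mul_Lq μ hq hg
      (aemeasurable_const (b := (1 : ℝ≥0∞)))
    simp only [Pi.mul_apply, mul_one, ENNReal.one_rpow, lintegral_const, one_mul] at h2
    have hp0 : 0 < s := by linarith
    have h3 := ENNReal.rpow_le_rpow h2 hp0.le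
    rw [ENNReal.mul_rpow_of_nonneg _ _ hp0.le, ← ENNReal.rpow_mul, one_div_mul_cancel hp0.ne',
      ENNReal.rpow_one, ← ENNReal.rpow_mul] at h3
    refine h3.trans (le_of_eq ?_)
    rw [mul_comm]
    congr 2
    have hq0 := hq.symm.pos
    have := hq.inv_add_inv_eq_one
    field_simp at this ⊢
    nlinarith

/-- Explicit positive lower bound for the sharp constants with `q ≤ p`. -/
theorem le_ballConst {n : ℕ} {κ p q R : ℝ} (hp : 1 ≤ p) (hq : 0 < q) (hqp : q ≤ p) (hR : 0 < R)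
    (hAc : Continuous (modelArea n κ))
    (hAm : MonotoneOn (modelArea n κ) (Ici 0)) (hA0 : ∀ r, 0 < r → 0 < modelArea n κ r) :
    (ENNReal.ofReal (R ^ p) *
      (∫⁻ r in Ioc (0 : ℝ) R, ENNReal.ofReal (modelArea n κ r)) ^ (p / q - 1))⁻¹ ≤
      ballConst n κ p q R := by
  have hp0 : 0 < p := by linarith
  have hpq : 1 ≤ p / q := by rwa [one_le_div hq]
  refine le_iInf₂ fun φ hφ => ?_
  obtain ⟨⟨C, hC⟩, h2, h3⟩ := hφ
  set N : ℝ≥0∞ := ∫⁻ r in Ioi (0 : ℝ), ENNReal.ofReal (|deriv φ r| ^ p * modelArea n κ r) with hN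
  set D : ℝ≥0∞ := ∫⁻ r in Ioi (0 : ℝ), ENNReal.ofReal (|φ r| ^ q * modelArea n κ r) with hD
  set m : ℝ≥0∞ := ∫⁻ r in Ioc (0 : ℝ) R, ENNReal.ofReal (modelArea n κ r) with hm
  have hNt : N ≠ ∞ := energy_ne_top hp hR hAm ⟨C, hC⟩ h2
  have hAp : ∀ r ∈ Ioc (0 : ℝ) R, 0 ≤ modelArea n κ r := fun r hr => (hA0 r hr.1).le
  have hAme : Measurable fun r => ENNReal.ofReal (modelArea n κ r) :=
    (ENNReal.continuous_ofReal.comp hAc).measurable
  -- restriction of the integrals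
  have hres : ∀ s : ℝ, 0 < s → ∫⁻ r in Ioi (0 : ℝ), ENNReal.ofReal (|φ r| ^ s * modelArea n κ r) =
      ∫⁻ r in Ioc (0 : ℝ) R, ENNReal.ofReal (|φ r| ^ s) * ENNReal.ofReal (modelArea n κ r) := by
    intro s hs
    have hsub : Ioc (0 : ℝ) R ⊆ Ioi 0 := Ioc_subset_Ioi_self
    rw [← lintegral_inter_add_sdiff (fun r => ENNReal.ofReal (|φ r| ^ s * modelArea n κ r))
      (Ioi (0 : ℝ)) (measurableSet_Ioc (a := (0 : ℝ)) (b := R)),
      inter_eq_self_of_subset_right hsub]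
    have e0 : ∫⁻ r in Ioi (0 : ℝ) \ Ioc 0 R, ENNReal.ofReal (|φ r| ^ s * modelArea n κ r) = 0 := by
      rw [setLIntegral_congr_fun (g := fun _ => 0) (measurableSet_Ioi.diff measurableSet_Ioc)]
      · simp
      · intro r hr
        have hr' : R ≤ r := by
          by_contra hcon
          exact hr.2 ⟨hr.1, (not_le.1 hcon).le⟩
        simp only [h2 r hr', abs_zero, Real.zero_rpow hs.ne', zero_mul, ENNReal.ofReal_zero]
    rw [e0, add_zero]
    refine setLIntegral_congr_fun measurableSet_Ioc fun r hr => ?_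
    rw [ENNReal.ofReal_mul (Real.rpow_nonneg (abs_nonneg _) _)]
  set μ : Measure ℝ := (volume.restrict (Ioc (0 : ℝ) R)).withDensity
    fun r => ENNReal.ofReal (modelArea n κ r) with hμ
  have hφm : ∀ s : ℝ, 0 < s → Measurable fun r => ENNReal.ofReal (|φ r| ^ s) := fun s hs =>
    (ENNReal.continuous_ofReal.comp (hC.continuous.abs.rpow_const fun r => Or.inr hs.le)).measurable
  have hμi : ∀ s : ℝ, 0 < s → ∫⁻ r, ENNReal.ofReal (|φ r| ^ s) ∂μ =
      ∫⁻ r in Ioi (0 : ℝ), ENNReal.ofReal (|φ r| ^ s * modelArea n κ r) := by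
    intro s hs
    rw [hres s hs, hμ, lintegral_withDensity_eq_lintegral_mul _ hAme (hφm s hs)]
    refine lintegral_congr fun r => ?_
    rw [Pi.mul_apply, mul_comm]
  have hμu : μ univ = m := by
    rw [hμ, withDensity_apply _ MeasurableSet.univ, Measure.restrict_univ]
  have hH := lintegral_rpow_le μ (hφm q hq).aemeasurable hpq
  have e1 : ∀ r, ENNReal.ofReal (|φ r| ^ q) ^ (p / q) = ENNReal.ofReal (|φ r| ^ p) := by
    intro r
    rw [ENNReal.ofReal_rpow_of_nonneg (Real.rpow_nonneg (abs_nonneg _) _) (by positivity),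
      ← Real.rpow_mul (abs_nonneg _), mul_div_cancel₀ _ hq.ne']
  simp only [e1] at hH
  rw [hμi q hq, hμi p hp0, hμu] at hH
  have hL := rayleigh_lower hp hR hAm hA0 ⟨C, hC⟩ h2
  have hmain : D ^ (p / q) ≤ ENNReal.ofReal (R ^ p) * m ^ (p / q - 1) * N := by
    calc D ^ (p / q) ≤ m ^ (p / q - 1) *
          ∫⁻ r in Ioi (0 : ℝ), ENNReal.ofReal (|φ r| ^ p * modelArea n κ r) := hH
      _ ≤ m ^ (p / q - 1) * (ENNReal.ofReal (R ^ p) * N) := mul_le_mul_right hL _
      _ = ENNReal.ofReal (R ^ p) * m ^ (p / q - 1) * N := by ring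
  have hDne : D ^ (p / q) ≠ 0 := by
    intro hcon
    rcases ENNReal.rpow_eq_zero_iff.1 hcon with h5 | h5
    · exact h3 h5.1
    · linarith [h5.2, zero_lt_one.trans_le hpq]
  have hmt : m ≠ ∞ := by
    rw [hm]
    refine ne_top_of_le_ne_top ?_ (setLIntegral_mono' measurableSet_Ioc
      (g := fun _ => ENNReal.ofReal (modelArea n κ R)) fun r hr =>
      ENNReal.ofReal_le_ofReal (hAm (mem_Ici.2 hr.1.le) (mem_Ici.2 hR.le) hr.2))
    rw [setLIntegral_const]
    exact ENNReal.mul_ne_top ENNReal.ofReal_ne_top (by simp)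
  have hKt : ENNReal.ofReal (R ^ p) * m ^ (p / q - 1) ≠ ∞ :=
    ENNReal.mul_ne_top ENNReal.ofReal_ne_top (ENNReal.rpow_ne_top_of_nonneg (by linarith) hmt)
  rw [ENNReal.le_div_iff_mul_le (Or.inl hDne) (Or.inr hNt)]
  set Kc : ℝ≥0∞ := ENNReal.ofReal (R ^ p) * m ^ (p / q - 1) with hKc
  have hK0 : Kc ≠ 0 := by
    intro h0
    rw [h0, zero_mul] at hmain
    exact hDne (le_antisymm hmain zero_le)
  calc Kc⁻¹ * D ^ (p / q) ≤ Kc⁻¹ * (Kc * N) := mul_le_mul_right hmain _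
    _ = N := by rw [← mul_assoc, ENNReal.inv_mul_cancel hK0 hKt, one_mul]

/-- The sharp constants with `q ≤ p` are positive. -/
theorem ballConst_pos {n : ℕ} {κ p q R : ℝ} (hp : 1 ≤ p) (hq : 0 < q) (hqp : q ≤ p) (hR : 0 < R)
    (hAc : Continuous (modelArea n κ))
    (hAm : MonotoneOn (modelArea n κ) (Ici 0)) (hA0 : ∀ r, 0 < r → 0 < modelArea n κ r) :
    0 < ballConst n κ p q R := by
  refine lt_of_lt_of_le ?_ (le_ballConst hp hq hqp hR hAc hAm hA0)
  refine ENNReal.inv_pos.2 (ENNReal.mul_ne_top ENNReal.ofReal_ne_top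
    (ENNReal.rpow_ne_top_of_nonneg ?_ ?_))
  · have : 1 ≤ p / q := by rwa [one_le_div hq]
    linarith
  · refine ne_top_of_le_ne_top ?_ (setLIntegral_mono' measurableSet_Ioc
      (g := fun _ => ENNReal.ofReal (modelArea n κ R)) fun r hr =>
      ENNReal.ofReal_le_ofReal (hAm (mem_Ici.2 hr.1.le) (mem_Ici.2 hR.le) hr.2))
    rw [setLIntegral_const]
    exact ENNReal.mul_ne_top ENNReal.ofReal_ne_top (by simp)

end Vale.Agent.P219.Co
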