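import Vale.Agent.P219.H732.Polar
import Vale.Agent.P219.H732.Cst

/-!
# Box averages of Lipschitz functions on the half line
-/

open MeasureTheory Set Filter Topology Metric
open scoped ENNReal NNReal ContDiff

namespace Vale.Agent.P219.Co

/-- the truncated shift -/
noncomputable def hs (φ : ℝ → ℝ) (e s : ℝ) : ℝ := φ (max s (2 * e) + 2 * e)

/-- the box average -/
noncomputable def bx (φ : ℝ → ℝ) (e r : ℝ) : ℝ := (2 * e)⁻¹ * ∫ s in (r - e)..(r + e), hs φ e s

/-- its derivative -/
noncomputable def bx' (φ : ℝ → ℝ) (e r : ℝ) : ℝ := (2 * e)⁻¹ * (hs φ e (r + e) - hs φ e (r - e))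

variable {φ : ℝ → ℝ} {C : ℝ≥0} {R e r : ℝ}

theorem hs_cont (hφ : LipschitzWith C φ) (e : ℝ) : Continuous (hs φ e) := by
  unfold hs
  exact hφ.continuous.comp (by fun_prop)

theorem hs_sub_le (hφ : LipschitzWith C φ) (e s s' : ℝ) : |hs φ e s - hs φ e s'| ≤ C * |s - s'| := by
  have h := hφ.dist_le_mul (max s (2 * e) + 2 * e) (max s' (2 * e) + 2 * e)
  rw [Real.dist_eq, Real.dist_eq] at h
  refine h.trans (mul_le_mul_of_nonneg_left ?_ C.2)
  have : max s (2 * e) + 2 * e - (max s' (2 * e) + 2 * e) = max s (2 * e) - max s' (2 * e) := by ring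
  rw [this]
  exact abs_max_sub_max_le_abs s s' (2 * e)

theorem hasDerivAt_bx (hφ : LipschitzWith C φ) (e r : ℝ) : HasDerivAt (bx φ e) (bx' φ e r) r := by
  have hc := hs_cont hφ e
  have hi : ∀ a b, IntervalIntegrable (hs φ e) volume a b := fun a b => hc.intervalIntegrable a b
  have h1 : ∀ x, HasDerivAt (fun u => ∫ s in (0 : ℝ)..u, hs φ e s) (hs φ e x) x := fun x =>
    intervalIntegral.integral_hasDerivAt_right (hi _ _) (hc.stronglyMeasurableAtFilter _ _)
      hc.continuousAt
  have h2 : HasDerivAt (fun u => ∫ s in (0 : ℝ)..(u + e), hs φ e s) (hs φ e (r + e)) r := by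
    simpa using (h1 (r + e)).comp_add_const r e
  have h3 : HasDerivAt (fun u => ∫ s in (0 : ℝ)..(u - e), hs φ e s) (hs φ e (r - e)) r := by
    simpa using (h1 (r - e)).comp_sub_const r e
  have h4 : bx φ e = fun u => (2 * e)⁻¹ *
      ((∫ s in (0 : ℝ)..(u + e), hs φ e s) - ∫ s in (0 : ℝ)..(u - e), hs φ e s) := by
    funext u
    rw [bx, intervalIntegral.integral_interval_sub_left (hi _ _) (hi _ _)]
  rw [h4]
  exact (h2.sub h3).const_mul _

theorem bx'_cont (hφ : LipschitzWith C φ) (e : ℝ) : Continuous (bx' φ e) := by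
  have hc := hs_cont hφ e
  unfold bx'
  fun_prop

theorem contDiff_bx (hφ : LipschitzWith C φ) (e : ℝ) : ContDiff ℝ 1 (bx φ e) := by
  rw [contDiff_one_iff_deriv]
  refine ⟨fun r => (hasDerivAt_bx hφ e r).differentiableAt, ?_⟩
  rw [show deriv (bx φ e) = bx' φ e from funext fun r => (hasDerivAt_bx hφ e r).deriv]
  exact bx'_cont hφ e

theorem bx_const (he : 0 < e) (hr : r ≤ e) : bx φ e r = φ (4 * e) := by
  have h : ∀ s ∈ uIcc (r - e) (r + e), hs φ e s = φ (4 * e) := by
    intro s hs'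
    rw [uIcc_of_le (by linarith)] at hs'
    rw [hs, max_eq_right (by linarith [hs'.2])]
    congr 1
    ring
  rw [bx, intervalIntegral.integral_congr h, intervalIntegral.integral_const]
  simp only [smul_eq_mul]
  field_simp
  ring

theorem hs_zero (hφR : ∀ r, R ≤ r → φ r = 0) {s : ℝ} (h : R - 2 * e ≤ s) : hs φ e s = 0 :=
  hφR _ (by have := le_max_left s (2 * e); linarith)

theorem bx_zero (he : 0 < e) (hφR : ∀ r, R ≤ r → φ r = 0) (hr : R - e ≤ r) : bx φ e r = 0 := by
  have h : ∀ s ∈ uIcc (r - e) (r + e), hs φ e s = 0 := by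
    intro s hs'
    rw [uIcc_of_le (by linarith)] at hs'
    exact hs_zero hφR (by linarith [hs'.1])
  rw [bx, intervalIntegral.integral_congr h]
  simp

theorem bx'_zero (he : 0 < e) (hφR : ∀ r, R ≤ r → φ r = 0) (hr : R - e ≤ r) : bx' φ e r = 0 := by
  rw [bx', hs_zero hφR (by linarith), hs_zero hφR (by linarith)]
  simp

theorem abs_bx'_le (hφ : LipschitzWith C φ) (he : 0 < e) : |bx' φ e r| ≤ C := by
  rw [bx', abs_mul, abs_of_pos (show 0 < (2 * e)⁻¹ by positivity)]
  have h := hs_sub_le hφ e (r + e) (r - e)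
  rw [show r + e - (r - e) = 2 * e by ring, abs_of_pos (show 0 < 2 * e by positivity)] at h
  calc (2 * e)⁻¹ * |hs φ e (r + e) - hs φ e (r - e)| ≤ (2 * e)⁻¹ * (C * (2 * e)) :=
        mul_le_mul_of_nonneg_left h (by positivity)
    _ = C := by field_simp

theorem abs_bx_sub_le (hφ : LipschitzWith C φ) (he : 0 < e) (hr : 0 ≤ r) :
    |bx φ e r - φ r| ≤ 4 * C * e := by
  have h1 : bx φ e r - φ r = (2 * e)⁻¹ * ∫ s in (r - e)..(r + e), (hs φ e s - φ r) := by
    rw [intervalIntegral.integral_sub ((hs_cont hφ e).intervalIntegrable _ _) (by simp),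
      intervalIntegral.integral_const, bx, smul_eq_mul]
    field_simp
    ring
  have h2 : ‖∫ s in (r - e)..(r + e), (hs φ e s - φ r)‖ ≤ (4 * C * e) * |r + e - (r - e)| := by
    refine intervalIntegral.norm_integral_le_of_norm_le_const fun s hs' => ?_
    rw [uIoc_of_le (by linarith)] at hs'
    have h := hφ.dist_le_mul (max s (2 * e) + 2 * e) r
    rw [Real.dist_eq, Real.dist_eq] at h
    rw [Real.norm_eq_abs]
    refine h.trans ?_
    have h3 : |max s (2 * e) + 2 * e - r| ≤ 4 * e := by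
      rw [abs_le]
      rcases le_total s (2 * e) with h4 | h4
      · rw [max_eq_right h4]
        constructor <;> linarith [hs'.1, hs'.2]
      · rw [max_eq_left h4]
        constructor <;> linarith [hs'.1, hs'.2]
    calc (C : ℝ) * |max s (2 * e) + 2 * e - r| ≤ C * (4 * e) := mul_le_mul_of_nonneg_left h3 C.2
      _ = 4 * C * e := by ring
  rw [h1, abs_mul, abs_of_pos (show 0 < (2 * e)⁻¹ by positivity)]
  rw [Real.norm_eq_abs, show r + e - (r - e) = 2 * e by ring, abs_of_pos (show 0 < 2 * e by positivity)]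
    at h2
  calc (2 * e)⁻¹ * |∫ s in (r - e)..(r + e), (hs φ e s - φ r)| ≤
        (2 * e)⁻¹ * (4 * C * e * (2 * e)) := mul_le_mul_of_nonneg_left h2 (by positivity)
    _ = 4 * C * e := by field_simp

theorem tendsto_bx (hφ : LipschitzWith C φ) (hr : 0 ≤ r) :
    Tendsto (fun e => bx φ e r) (𝓝[>] 0) (𝓝 (φ r)) := by
  rw [tendsto_iff_norm_sub_tendsto_zero]
  have h1 : Tendsto (fun e : ℝ => 4 * C * e) (𝓝[>] 0) (𝓝 0) := by
    have : Tendsto (fun e : ℝ => 4 * C * e) (𝓝 0) (𝓝 (4 * C * 0)) := by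
      exact (continuous_const.mul continuous_id).tendsto _
    rw [mul_zero] at this
    exact this.mono_left nhdsWithin_le_nhds
  refine squeeze_zero' (Eventually.of_forall fun e => norm_nonneg _) ?_ h1
  filter_upwards [self_mem_nhdsWithin] with e he
  rw [Real.norm_eq_abs]
  exact abs_bx_sub_le hφ he hr

theorem tendsto_bx' (hr : 0 < r) {c : ℝ} (h : HasDerivAt φ c r) :
    Tendsto (fun e => bx' φ e r) (𝓝[>] 0) (𝓝 c) := by
  have h1 := h.tendsto_slope
  have h2 : ∀ a : ℝ, 0 < a → Tendsto (fun e : ℝ => r + a * e) (𝓝[>] 0) (𝓝[≠] r) := by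
    intro a ha
    refine tendsto_nhdsWithin_iff.2 ⟨?_, ?_⟩
    · have : Tendsto (fun e : ℝ => r + a * e) (𝓝 0) (𝓝 (r + a * 0)) :=
        (continuous_const.add (continuous_const.mul continuous_id)).tendsto _
      rw [mul_zero, add_zero] at this
      exact this.mono_left nhdsWithin_le_nhds
    · filter_upwards [self_mem_nhdsWithin] with e he
      have : 0 < a * e := mul_pos ha he
      simp only [mem_compl_iff, mem_singleton_iff]
      linarith
  have h3 := (h1.comp (h2 3 (by norm_num))).const_mul (3 / 2)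
  have h4 := (h1.comp (h2 1 one_pos)).const_mul (1 / 2)
  have h5 := h3.sub h4
  rw [show (3 / 2 : ℝ) * c - 1 / 2 * c = c by ring] at h5
  refine h5.congr' ?_
  have h6 : Ioo (0 : ℝ) (r / 3) ∈ 𝓝[>] (0 : ℝ) := Ioo_mem_nhdsGT (by positivity)
  filter_upwards [h6] with e he
  have he0 : 0 < e := he.1
  have he1 : 3 * e < r := by linarith [he.2]
  simp only [Function.comp_apply, slope_def_field, bx', hs]
  rw [max_eq_left (by linarith), max_eq_left (by linarith),
    show r + e + 2 * e = r + 3 * e by ring, show r - e + 2 * e = r + 1 * e by ring,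
    show r + 3 * e - r = 3 * e by ring, show r + 1 * e - r = e by ring]
  field_simp
  ring

end Vale.Agent.P219.Co
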