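import Vale.Agent.P219.CoDefs

open MeasureTheory Set
open scoped ENNReal NNReal

namespace Vale.Agent.P219.Co

/-- The first Dirichlet eigenvalue of the `p`-Laplacian (`p = 2`: of the Laplacian) of the geodesic
ball of radius `R` of the `n`-dimensional space form of curvature `κ`: the infimum of
`∫ |∇φ|ᵖ / ∫ |φ|ᵖ` over the Lipschitz radial functions `φ(r)` which vanish for `r ≥ R` (the first
eigenfunction is radial). -/
noncomputable def ballEigen (n : ℕ) (κ p R : ℝ) : ℝ≥0∞ :=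
  ⨅ (φ : ℝ → ℝ) (_ : (∃ C : ℝ≥0, LipschitzWith C φ) ∧ (∀ r, R ≤ r → φ r = 0) ∧
      ∫⁻ r in Ioi (0 : ℝ), ENNReal.ofReal (|φ r| ^ p * modelArea n κ r) ≠ 0),
    (∫⁻ r in Ioi (0 : ℝ), ENNReal.ofReal (|deriv φ r| ^ p * modelArea n κ r)) /
      ∫⁻ r in Ioi (0 : ℝ), ENNReal.ofReal (|φ r| ^ p * modelArea n κ r)

end Vale.Agent.P219.Co
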