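import Vale.Agent.P219.H732.EigDef

/-!
# One-dimensional step of the Faber-Krahn inequality
-/

open MeasureTheory Set Filter Topology
open scoped ENNReal NNReal

namespace Vale.Agent.P219.Co

/-- A Rayleigh inequality for Lipschitz functions which vanish beyond `R` extends to decreasing
functions which are Lipschitz away from `0`. -/
theorem rayleigh_ext {F A : ℝ → ℝ} {p R : ℝ} (hp : 1 ≤ p)
    (hA : Continuous A) (hA0 : ∀ r, 0 ≤ r → 0 ≤ A r)
    (hF : AntitoneOn F (Ioi 0)) (hF0 : ∀ r, 0 < r → 0 ≤ F r) (hFR : ∀ r, R ≤ r → 0 < r → F r = 0)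
    (hLip : ∀ ε : ℝ, 0 < ε → ∃ C : ℝ≥0, LipschitzOnWith C F (Ici ε)) {Λ : ℝ≥0∞}
    (hl : ∀ φ : ℝ → ℝ, (∃ C : ℝ≥0, LipschitzWith C φ) → (∀ r, R ≤ r → φ r = 0) →
      Λ * ∫⁻ r in Ioi (0 : ℝ), ENNReal.ofReal (|φ r| ^ p * A r) ≤
        ∫⁻ r in Ioi (0 : ℝ), ENNReal.ofReal (|deriv φ r| ^ p * A r)) :
    Λ * ∫⁻ r in Ioi (0 : ℝ), ENNReal.ofReal (F r ^ p * A r) ≤
      ∫⁻ r in Ioi (0 : ℝ), ENNReal.ofReal (|deriv F r| ^ p * A r) := by
  have hp0 : 0 < p := by linarith
  set e : ℕ → ℝ := fun k => 1 / ((k : ℝ) + 1) with hedef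
  have he : ∀ k, 0 < e k := fun k => by positivity
  have he0 : Tendsto e atTop (𝓝 0) := tendsto_one_div_add_atTop_nhds_zero_nat
  have hanti : Antitone e := fun i j hij => by
    simp only [hedef]
    exact one_div_le_one_div_of_le (by positivity) (by have : (i : ℝ) ≤ j := by exact_mod_cast hij
                                                       linarith)
  set φ : ℕ → ℝ → ℝ := fun k r => F (max r (e k)) with hφdef
  have hmpos : ∀ k r, 0 < max r (e k) := fun k r => lt_max_of_lt_right (he k)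
  have hφL : ∀ k, ∃ C : ℝ≥0, LipschitzWith C (φ k) := by
    intro k
    obtain ⟨C, hC⟩ := hLip (e k) (he k)
    refine ⟨C, LipschitzWith.of_dist_le_mul fun x y => ?_⟩
    have h1 := hC.dist_le_mul (max x (e k)) (mem_Ici.2 (le_max_right _ _)) (max y (e k))
      (mem_Ici.2 (le_max_right _ _))
    refine h1.trans (mul_le_mul_of_nonneg_left ?_ C.2)
    rw [Real.dist_eq, Real.dist_eq]
    exact abs_max_sub_max_le_abs x y (e k)
  have hφR : ∀ k r, R ≤ r → φ k r = 0 := fun k r hr =>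
    hFR _ (hr.trans (le_max_left _ _)) (hmpos k r)
  have hφc : ∀ k, Continuous (φ k) := fun k => (hφL k).choose_spec.continuous
  have hφ0 : ∀ k r, 0 ≤ φ k r := fun k r => hF0 _ (hmpos k r)
  -- one value of k
  have hone : ∀ k, Λ * ∫⁻ r in Ioi (0 : ℝ), ENNReal.ofReal (|φ k r| ^ p * A r) ≤
      ∫⁻ r in Ioi (0 : ℝ), ENNReal.ofReal (|deriv F r| ^ p * A r) := by
    intro k
    refine (hl (φ k) (hφL k) (hφR k)).trans (lintegral_mono_ae ?_)
    have hne : ∀ᵐ r ∂(volume.restrict (Ioi (0 : ℝ))), r ≠ e k := by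
      refine ae_restrict_of_ae ?_
      rw [ae_iff]
      simp
    filter_upwards [hne, self_mem_ae_restrict measurableSet_Ioi] with r hr hr0
    refine ENNReal.ofReal_le_ofReal
      (mul_le_mul_of_nonneg_right ?_ (hA0 r (le_of_lt (mem_Ioi.1 hr0))))
    rcases lt_or_gt_of_ne hr with h1 | h1
    · have : φ k =ᶠ[𝓝 r] fun _ => F (e k) := by
        filter_upwards [Iio_mem_nhds h1] with x hx
        simp only [hφdef, max_eq_right (le_of_lt (mem_Iio.1 hx))]
      rw [this.deriv_eq, deriv_const, abs_zero, Real.zero_rpow hp0.ne']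
      exact Real.rpow_nonneg (abs_nonneg _) _
    · have : φ k =ᶠ[𝓝 r] F := by
        filter_upwards [Ioi_mem_nhds h1] with x hx
        simp only [hφdef, max_eq_left (le_of_lt (mem_Ioi.1 hx))]
      rw [this.deriv_eq]
  -- the limit
  have hlim : Tendsto (fun k => ∫⁻ r in Ioi (0 : ℝ), ENNReal.ofReal (|φ k r| ^ p * A r)) atTop
      (𝓝 (∫⁻ r in Ioi (0 : ℝ), ENNReal.ofReal (F r ^ p * A r))) := by
    refine lintegral_tendsto_of_tendsto_of_monotone ?_ ?_ ?_
    · intro k
      have : Continuous fun r => |φ k r| ^ p * A r :=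
        ((hφc k).abs.rpow_const fun r => Or.inr hp0.le).mul hA
      exact (ENNReal.continuous_ofReal.comp this).measurable.aemeasurable
    · filter_upwards [self_mem_ae_restrict measurableSet_Ioi] with r hr
      intro i j hij
      refine ENNReal.ofReal_le_ofReal (mul_le_mul_of_nonneg_right ?_ (hA0 r (le_of_lt hr)))
      refine Real.rpow_le_rpow (abs_nonneg _) ?_ hp0.le
      rw [abs_of_nonneg (hφ0 i r), abs_of_nonneg (hφ0 j r)]
      exact hF (hmpos j r) (hmpos i r) (max_le_max le_rfl (hanti hij))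
    · filter_upwards [self_mem_ae_restrict measurableSet_Ioi] with r hr
      refine tendsto_const_nhds.congr' ?_
      filter_upwards [he0.eventually (gt_mem_nhds (show (0 : ℝ) < r from hr))] with k hk
      simp only [hφdef, max_eq_left hk.le, abs_of_nonneg (hF0 r hr)]
  rcases eq_or_ne Λ ∞ with hΛ | hΛ
  · -- the case of an infinite constant
    subst hΛ
    by_cases h0 : ∫⁻ r in Ioi (0 : ℝ), ENNReal.ofReal (F r ^ p * A r) = 0
    · rw [h0, mul_zero]; exact zero_le
    · have hpos : 0 < ∫⁻ r in Ioi (0 : ℝ), ENNReal.ofReal (F r ^ p * A r) :=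
        pos_iff_ne_zero.2 h0
      obtain ⟨k, hk⟩ := (hlim.eventually (lt_mem_nhds hpos)).exists
      have := hone k
      rw [ENNReal.top_mul hk.ne'] at this
      rw [top_le_iff.1 this]
      exact le_top
  · exact le_of_tendsto (ENNReal.Tendsto.const_mul hlim (Or.inr hΛ)) (Eventually.of_forall hone)

/-- Lipschitz bounds away from `0` from the isoperimetric inequality of the layers. -/
theorem lipschitzOn_of_layer {F A V : ℝ → ℝ} {R L : ℝ} (hR : 0 < R)
    (hAm : MonotoneOn A (Ici 0)) (hA0 : ∀ r, 0 < r → 0 < A r) (hV : ∀ r, HasDerivAt V (A r) r)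
    (hF : AntitoneOn F (Ici 0)) (hFR : ∀ r, R ≤ r → F r = 0)
    (hlip : ∀ r s, 0 < r → r ≤ s → A r * (F r - F s) ≤ L * (V s - V r)) {ε : ℝ} (hε : 0 < ε) :
    ∃ C : ℝ≥0, LipschitzOnWith C F (Ici ε) := by
  have hVle : ∀ r s, 0 ≤ r → r ≤ s → s ≤ R → V s - V r ≤ A R * (s - r) := by
    intro r s hr hrs hsR
    refine Convex.image_sub_le_mul_sub_of_deriv_le (convex_Icc r s)
      (fun x _ => (hV x).continuousAt.continuousWithinAt)
      (fun x _ => (hV x).differentiableAt.differentiableWithinAt) ?_ r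
      (left_mem_Icc.2 hrs) s (right_mem_Icc.2 hrs) hrs
    intro x hx
    rw [interior_Icc] at hx
    rw [(hV x).deriv]
    exact hAm (mem_Ici.2 (hr.trans hx.1.le)) (mem_Ici.2 hR.le) (hx.2.le.trans hsR)
  have hV0 : ∀ r s, 0 ≤ r → r ≤ s → 0 ≤ V s - V r := by
    intro r s hr hrs
    have hm : MonotoneOn V (Icc r s) := by
      refine monotoneOn_of_deriv_nonneg (convex_Icc r s)
        (fun x _ => (hV x).continuousAt.continuousWithinAt)
        (fun x _ => (hV x).differentiableAt.differentiableWithinAt) ?_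
      intro x hx
      rw [interior_Icc] at hx
      rw [(hV x).deriv]
      exact (hA0 x (lt_of_le_of_lt hr hx.1)).le
    have := hm (left_mem_Icc.2 hrs) (right_mem_Icc.2 hrs) hrs
    linarith
  have hAR := hA0 R hR
  have hAe := hA0 ε hε
  set C : ℝ := |L| * A R / A ε with hC
  have hC0 : 0 ≤ C := by positivity
  -- one sided bound
  have key : ∀ r s, ε ≤ r → r ≤ s → F r - F s ≤ C * (s - r) := by
    intro r s hr hrs
    have hr0 : 0 < r := hε.trans_le hr
    rcases le_or_gt R r with h1 | h1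
    · rw [hFR r h1, hFR s (h1.trans hrs), sub_zero]
      exact mul_nonneg hC0 (sub_nonneg.2 hrs)
    · -- replace s by min s R
      have hsm : r ≤ min s R := le_min hrs h1.le
      have e1 : F r - F s ≤ F r - F (min s R) := by
        rcases le_total s R with h2 | h2
        · rw [min_eq_left h2]
        · rw [min_eq_right h2, hFR s h2, hFR R le_rfl]
      have e2 := hlip r (min s R) hr0 hsm
      have e3 := hVle r (min s R) hr0.le hsm (min_le_right _ _)
      have e4 := hV0 r (min s R) hr0.le hsm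
      have e5 : A ε ≤ A r := hAm (mem_Ici.2 hε.le) (mem_Ici.2 hr0.le) hr
      have e6 : 0 ≤ F r - F (min s R) :=
        sub_nonneg.2 (hF (mem_Ici.2 hr0.le) (mem_Ici.2 (hr0.le.trans hsm)) hsm)
      have e7 : A ε * (F r - F (min s R)) ≤ |L| * (A R * (s - r)) := by
        calc A ε * (F r - F (min s R)) ≤ A r * (F r - F (min s R)) :=
              mul_le_mul_of_nonneg_right e5 e6
          _ ≤ L * (V (min s R) - V r) := e2
          _ ≤ |L| * (V (min s R) - V r) := mul_le_mul_of_nonneg_right (le_abs_self L) e4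
          _ ≤ |L| * (A R * (min s R - r)) := mul_le_mul_of_nonneg_left e3 (abs_nonneg _)
          _ ≤ |L| * (A R * (s - r)) := by
              refine mul_le_mul_of_nonneg_left (mul_le_mul_of_nonneg_left ?_ hAR.le) (abs_nonneg _)
              have := min_le_left s R
              linarith
      have e8 : F r - F (min s R) ≤ C * (s - r) := by
        rw [hC, div_mul_eq_mul_div, le_div_iff₀ hAe]
        linarith
      exact e1.trans e8
  refine ⟨⟨C, hC0⟩, LipschitzOnWith.of_dist_le_mul fun x hx y hy => ?_⟩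
  rw [mem_Ici] at hx hy
  rw [Real.dist_eq, Real.dist_eq]
  show |F x - F y| ≤ C * |x - y|
  rcases le_total x y with h | h
  · have h1 := key x y hx h
    have h2 : 0 ≤ F x - F y :=
      sub_nonneg.2 (hF (mem_Ici.2 (hε.le.trans hx)) (mem_Ici.2 (hε.le.trans hy)) h)
    rw [abs_of_nonneg h2, abs_sub_comm, abs_of_nonneg (sub_nonneg.2 h)]
    exact h1
  · have h1 := key y x hy h
    have h2 : 0 ≤ F y - F x :=
      sub_nonneg.2 (hF (mem_Ici.2 (hε.le.trans hy)) (mem_Ici.2 (hε.le.trans hx)) h)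
    rw [abs_sub_comm, abs_of_nonneg h2, abs_of_nonneg (sub_nonneg.2 h)]
    exact h1

/-- the defining inequality of `ballEigen` -/
theorem ballEigen_mul_le {n : ℕ} {κ p R : ℝ} {φ : ℝ → ℝ} (h1 : ∃ C : ℝ≥0, LipschitzWith C φ)
    (h2 : ∀ r, R ≤ r → φ r = 0) :
    ballEigen n κ p R * ∫⁻ r in Ioi (0 : ℝ), ENNReal.ofReal (|φ r| ^ p * modelArea n κ r) ≤
      ∫⁻ r in Ioi (0 : ℝ), ENNReal.ofReal (|deriv φ r| ^ p * modelArea n κ r) := by
  by_cases h0 : ∫⁻ r in Ioi (0 : ℝ), ENNReal.ofReal (|φ r| ^ p * modelArea n κ r) = 0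
  · rw [h0, mul_zero]; exact zero_le
  · exact ENNReal.mul_le_of_le_div (iInf₂_le φ ⟨h1, h2, h0⟩)

/-- The one-dimensional Faber-Krahn inequality. -/
theorem fk_1d {n : ℕ} {κ p R : ℝ} (hp : 1 ≤ p) (hR : 0 < R)
    (hAc : Continuous (modelArea n κ)) (hAm : MonotoneOn (modelArea n κ) (Ici 0))
    (hA0 : ∀ r, 0 < r → 0 < modelArea n κ r)
    (hV : ∀ r, HasDerivAt (modelVol n κ) (modelArea n κ r) r) {F : ℝ → ℝ}
    (hF0 : ∀ r, 0 ≤ r → 0 ≤ F r) (hF : AntitoneOn F (Ici 0)) (hFR : ∀ r, R ≤ r → F r = 0)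
    (hlip : ∃ L, ∀ r s, 0 < r → r ≤ s →
      modelArea n κ r * (F r - F s) ≤ L * (modelVol n κ s - modelVol n κ r)) :
    ballEigen n κ p R * ∫⁻ r in Ioi (0 : ℝ), ENNReal.ofReal (F r ^ p * modelArea n κ r) ≤
      ∫⁻ r in Ioi (0 : ℝ), ENNReal.ofReal (|deriv F r| ^ p * modelArea n κ r) := by
  obtain ⟨L, hL⟩ := hlip
  have hA0' : ∀ r, 0 ≤ r → 0 ≤ modelArea n κ r := by
    intro r hr
    rcases hr.eq_or_lt with h | h
    · rw [← h]
      refine ge_of_tendsto ((hAc.tendsto 0).mono_left nhdsWithin_le_nhds : Tendsto _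
        (𝓝[>] (0 : ℝ)) _) ?_
      filter_upwards [self_mem_nhdsWithin] with x hx using (hA0 x hx).le
    · exact (hA0 r h).le
  exact rayleigh_ext hp hAc hA0' (hF.mono Ioi_subset_Ici_self) (fun r hr => hF0 r hr.le)
    (fun r hr _ => hFR r hr)
    (fun ε hε => lipschitzOn_of_layer hR hAm hA0 hV hF hFR hL hε)
    (fun φ h1 h2 => ballEigen_mul_le h1 h2)

end Vale.Agent.P219.Co
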