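import Vale.Agent.P219.H732.Box

/-!
# The Euclidean ball: the infimum over all `C¹` functions with compact support in the ball is at
most the radial constant `ballConst n 0 p q R`
-/

open MeasureTheory Set Filter Topology Metric
open scoped ENNReal NNReal ContDiff

namespace Vale.Agent.P219.Co

theorem tendsto_lint {A : ℝ → ℝ} (hA : Continuous A) {q B R : ℝ} (hq : 0 < q) {G : ℝ → ℝ → ℝ}
    {g : ℝ → ℝ} (hG : ∀ e, Continuous (G e)) (hB : ∀ᶠ e in 𝓝[>] (0 : ℝ), ∀ r, 0 < r → |G e r| ≤ B)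
    (hR : ∀ᶠ e in 𝓝[>] (0 : ℝ), ∀ r, R ≤ r → G e r = 0)
    (hl : ∀ᵐ r ∂(volume.restrict (Ioi (0 : ℝ))), Tendsto (fun e => G e r) (𝓝[>] 0) (𝓝 (g r))) :
    Tendsto (fun e => ∫⁻ r in Ioi (0 : ℝ), ENNReal.ofReal (|G e r| ^ q * A r)) (𝓝[>] 0)
      (𝓝 (∫⁻ r in Ioi (0 : ℝ), ENNReal.ofReal (|g r| ^ q * A r))) := by
  refine tendsto_lintegral_filter_of_dominated_convergence
    ((Iio R).indicator fun r => ENNReal.ofReal (B ^ q * |A r|)) ?_ ?_ ?_ ?_
  · refine Eventually.of_forall fun e => ?_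
    have : Continuous fun r => |G e r| ^ q * A r :=
      ((hG e).abs.rpow_const fun r => Or.inr hq.le).mul hA
    exact (ENNReal.continuous_ofReal.comp this).measurable
  · filter_upwards [hB, hR] with e h1 h2
    filter_upwards [self_mem_ae_restrict measurableSet_Ioi] with r hr
    by_cases hrR : r < R
    · rw [indicator_of_mem (mem_Iio.2 hrR)]
      refine ENNReal.ofReal_le_ofReal ?_
      calc |G e r| ^ q * A r ≤ |G e r| ^ q * |A r| :=
            mul_le_mul_of_nonneg_left (le_abs_self _) (Real.rpow_nonneg (abs_nonneg _) _)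
        _ ≤ B ^ q * |A r| := mul_le_mul_of_nonneg_right
            (Real.rpow_le_rpow (abs_nonneg _) (h1 r hr) hq.le) (abs_nonneg _)
    · rw [h2 r (not_lt.1 hrR), abs_zero, Real.zero_rpow hq.ne', zero_mul, ENNReal.ofReal_zero]
      exact zero_le
  · have h1 : Continuous fun r => B ^ q * |A r| := continuous_const.mul hA.abs
    have h2 : ∫⁻ r in Icc 0 R, ENNReal.ofReal (B ^ q * |A r|) < ⊤ :=
      (h1.continuousOn.integrableOn_Icc (μ := volume)).lintegral_lt_top
    rw [lintegral_indicator measurableSet_Iio, Measure.restrict_restrict measurableSet_Iio]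
    refine (lt_of_le_of_lt (lintegral_mono_set ?_) h2).ne
    rintro r ⟨hr1, hr2⟩
    exact ⟨le_of_lt hr2, le_of_lt hr1⟩
  · filter_upwards [hl] with r hr
    refine (ENNReal.continuous_ofReal.tendsto _).comp (Tendsto.mul_const _ ?_)
    exact hr.abs.rpow_const (Or.inr hq.le)

theorem contDiff_radial {n : ℕ} {φ : ℝ → ℝ} {C : ℝ≥0} (hφ : LipschitzWith C φ) {e : ℝ}
    (he : 0 < e) : ContDiff ℝ 1 fun x : E n => bx φ e ‖x‖ := by
  rw [contDiff_iff_contDiffAt]
  intro x
  by_cases hx : x = 0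
  · have : (fun y : E n => bx φ e ‖y‖) =ᶠ[𝓝 x] fun _ => φ (4 * e) := by
      rw [hx]
      filter_upwards [ball_mem_nhds (0 : E n) he] with y hy
      exact bx_const he (mem_ball_zero_iff.1 hy).le
    exact contDiffAt_const.congr_of_eventuallyEq this
  · exact (contDiff_bx hφ e).contDiffAt.comp x (contDiffAt_norm ℝ hx)

theorem gradNorm_bx {n : ℕ} {M : RiemMetric n} {x : E n} (hM : M.g x = 1) {φ : ℝ → ℝ} {C : ℝ≥0}
    (hφ : LipschitzWith C φ) {e : ℝ} (he : 0 < e) :
    gradNorm M (fun y : E n => bx φ e ‖y‖) x = |bx' φ e ‖x‖| := by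
  by_cases hx : x = 0
  · have h0 : bx' φ e ‖x‖ = 0 := by
      rw [hx, norm_zero, bx', hs, hs, max_eq_right (by linarith), max_eq_right (by linarith)]
      simp
    have h1 : (fun y : E n => bx φ e ‖y‖) =ᶠ[𝓝 x] fun _ => φ (4 * e) := by
      rw [hx]
      filter_upwards [ball_mem_nhds (0 : E n) he] with y hy
      exact bx_const he (mem_ball_zero_iff.1 hy).le
    have h2 : HasFDerivAt (fun y : E n => bx φ e ‖y‖) (0 : E n →L[ℝ] ℝ) x :=
      (hasFDerivAt_const _ _).congr_of_eventuallyEq h1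
    rw [h0, gradNorm_flat hM]
    have h3 : ∀ i, pd i (fun y : E n => bx φ e ‖y‖) x = 0 := by
      intro i
      rw [pd, (h2.hasLineDerivAt _).lineDeriv]
      simp
    simp [h3]
  · exact gradNorm_radial hM hx (hasDerivAt_bx hφ e ‖x‖)

/-- **The flat ball.** For the Euclidean metric the infimum of `∫ |∇f|ᵖ / (∫ |f|^q)^(p/q)` over the
`C¹` functions with compact support in the open ball of radius `R` is at most the radial constant
`ballConst n 0 p q R`. -/
theorem flat_le_ballConst {n : ℕ} (hn : 1 ≤ n) {p q R : ℝ} (hp : 0 < p) (hq : 0 < q)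
    (M : RiemMetric n) (hM : ∀ x, M.g x = 1) :
    ⨅ (f : E n → ℝ) (_ : ContDiff ℝ 1 f ∧ HasCompactSupport f ∧ tsupport f ⊆ ball 0 R ∧
        ∫⁻ x, ENNReal.ofReal (|f x| ^ q * volDensity M x) ∂leb n ≠ 0),
      (∫⁻ x, ENNReal.ofReal (gradNorm M f x ^ p * volDensity M x) ∂leb n) /
        (∫⁻ x, ENNReal.ofReal (|f x| ^ q * volDensity M x) ∂leb n) ^ (p / q) ≤
      ballConst n 0 p q R := by
  refine le_iInf₂ fun φ hφ0 => ?_
  obtain ⟨⟨C, hφ⟩, hφR, hm⟩ := hφ0
  have hA : Continuous (modelArea n 0) := by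
    rw [show modelArea n 0 = fun r => n * omega n * r ^ (n - 1) from funext (modelArea_zero n)]
    fun_prop
  have hR : 0 < R := by
    by_contra hR
    refine hm ?_
    rw [lintegral_eq_zero_iff' (by
      have : Continuous fun r => |φ r| ^ q * modelArea n 0 r :=
        (hφ.continuous.abs.rpow_const fun r => Or.inr hq.le).mul hA
      exact (ENNReal.continuous_ofReal.comp this).measurable.aemeasurable)]
    filter_upwards [self_mem_ae_restrict measurableSet_Ioi] with r hr
    rw [hφR r ((not_lt.1 hR).trans (le_of_lt hr)), abs_zero, Real.zero_rpow hq.ne', zero_mul]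
    simp
  -- bounds
  have hB : ∀ r, 0 ≤ r → |φ r| ≤ C * R := by
    intro r hr
    by_cases h : R ≤ r
    · rw [hφR r h, abs_zero]; positivity
    · have h1 := hφ.dist_le_mul r R
      rw [Real.dist_eq, Real.dist_eq, hφR R le_rfl, sub_zero] at h1
      refine h1.trans (mul_le_mul_of_nonneg_left ?_ C.2)
      rw [abs_le]
      constructor <;> linarith [not_le.1 h]
  have hBx : ∀ e, 0 < e → e < R → ∀ r, 0 ≤ r → |bx φ e r| ≤ 5 * C * R := by
    intro e he heR r hr
    have h1 := abs_bx_sub_le hφ he hr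
    have h2 := hB r hr
    have h3 : (C : ℝ) * e ≤ C * R := mul_le_mul_of_nonneg_left heR.le C.2
    calc |bx φ e r| = |(bx φ e r - φ r) + φ r| := by ring_nf
      _ ≤ |bx φ e r - φ r| + |φ r| := abs_add_le _ _
      _ ≤ 4 * C * e + C * R := add_le_add h1 h2
      _ ≤ 5 * C * R := by linarith
  have hev : ∀ᶠ e in 𝓝[>] (0 : ℝ), 0 < e ∧ e < R := by
    filter_upwards [Ioo_mem_nhdsGT hR] with e he using he
  have hmass : Tendsto (fun e => ∫⁻ r in Ioi (0 : ℝ),
      ENNReal.ofReal (|bx φ e r| ^ q * modelArea n 0 r)) (𝓝[>] 0)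
      (𝓝 (∫⁻ r in Ioi (0 : ℝ), ENNReal.ofReal (|φ r| ^ q * modelArea n 0 r))) := by
    refine tendsto_lint hA hq (B := 5 * C * R) (R := R) (fun e => (contDiff_bx hφ e).continuous)
      ?_ ?_ ?_
    · filter_upwards [hev] with e he r hr using hBx e he.1 he.2 r hr.le
    · filter_upwards [hev] with e he r hr using bx_zero he.1 hφR (by linarith [he.1])
    · filter_upwards [self_mem_ae_restrict measurableSet_Ioi] with r hr
      exact tendsto_bx hφ (le_of_lt hr)
  have hen : Tendsto (fun e => ∫⁻ r in Ioi (0 : ℝ),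
      ENNReal.ofReal (|bx' φ e r| ^ p * modelArea n 0 r)) (𝓝[>] 0)
      (𝓝 (∫⁻ r in Ioi (0 : ℝ), ENNReal.ofReal (|deriv φ r| ^ p * modelArea n 0 r))) := by
    refine tendsto_lint hA hp (B := C) (R := R) (fun e => bx'_cont hφ e) ?_ ?_ ?_
    · filter_upwards [hev] with e he r hr using abs_bx'_le hφ he.1
    · filter_upwards [hev] with e he r hr using bx'_zero he.1 hφR (by linarith [he.1])
    · filter_upwards [self_mem_ae_restrict measurableSet_Ioi,
        ae_restrict_of_ae hφ.ae_differentiableAt_real] with r hr hd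
      exact tendsto_bx' hr hd.hasDerivAt
  set m := ∫⁻ r in Ioi (0 : ℝ), ENNReal.ofReal (|φ r| ^ q * modelArea n 0 r) with hmdef
  set en := ∫⁻ r in Ioi (0 : ℝ), ENNReal.ofReal (|deriv φ r| ^ p * modelArea n 0 r) with hendef
  have hmfin : m ≠ ⊤ := by
    have h1 : Continuous fun r => |φ r| ^ q * modelArea n 0 r :=
      (hφ.continuous.abs.rpow_const fun r => Or.inr hq.le).mul hA
    have h2 : ∫⁻ r in Icc 0 R, ENNReal.ofReal (|φ r| ^ q * modelArea n 0 r) < ⊤ :=
      (h1.continuousOn.integrableOn_Icc (μ := volume)).lintegral_lt_top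
    refine (lt_of_le_of_lt ?_ h2).ne
    rw [hmdef, ← lintegral_indicator measurableSet_Ioi, ← lintegral_indicator measurableSet_Icc]
    refine lintegral_mono fun r => ?_
    by_cases hr : r ∈ Ioi (0 : ℝ)
    · by_cases hrR : r ≤ R
      · rw [indicator_of_mem hr, indicator_of_mem (show r ∈ Icc 0 R from ⟨le_of_lt hr, hrR⟩)]
      · rw [indicator_of_mem hr, hφR r (not_le.1 hrR).le, abs_zero, Real.zero_rpow hq.ne', zero_mul,
          ENNReal.ofReal_zero]
        exact zero_le
    · rw [indicator_of_notMem hr]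
      exact zero_le
  have hpq : 0 < p / q := div_pos hp hq
  have hlim : Tendsto (fun e => (∫⁻ r in Ioi (0 : ℝ),
      ENNReal.ofReal (|bx' φ e r| ^ p * modelArea n 0 r)) / (∫⁻ r in Ioi (0 : ℝ),
      ENNReal.ofReal (|bx φ e r| ^ q * modelArea n 0 r)) ^ (p / q)) (𝓝[>] 0)
      (𝓝 (en / m ^ (p / q))) := by
    refine ENNReal.Tendsto.div hen (Or.inr ?_)
      ((ENNReal.continuous_rpow_const.tendsto _).comp hmass) (Or.inl ?_)
    · intro hcon
      rcases ENNReal.rpow_eq_zero_iff.1 hcon with h5 | h5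
      · exact hm h5.1
      · linarith [h5.2]
    · exact ENNReal.rpow_ne_top_of_nonneg hpq.le hmfin
  refine ge_of_tendsto hlim ?_
  filter_upwards [hev, hmass.eventually (lt_mem_nhds (pos_iff_ne_zero.2 hm))] with e he hpos
  have hmE : ∫⁻ x, ENNReal.ofReal (|bx φ e ‖x‖| ^ q * volDensity M x) ∂leb n =
      ∫⁻ r in Ioi (0 : ℝ), ENNReal.ofReal (|bx φ e r| ^ q * modelArea n 0 r) := by
    have hc : Continuous fun r => |bx φ e r| ^ q :=
      (contDiff_bx hφ e).continuous.abs.rpow_const fun r => Or.inr hq.le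
    rw [← lintegral_radial hn (F := fun r => |bx φ e r| ^ q) hc.measurable, leb]
    refine lintegral_congr fun x => ?_
    rw [volDensity_flat (hM x), mul_one]
  have heE : ∫⁻ x, ENNReal.ofReal (gradNorm M (fun y : E n => bx φ e ‖y‖) x ^ p *
      volDensity M x) ∂leb n =
      ∫⁻ r in Ioi (0 : ℝ), ENNReal.ofReal (|bx' φ e r| ^ p * modelArea n 0 r) := by
    have hc : Continuous fun r => |bx' φ e r| ^ p :=
      (bx'_cont hφ e).abs.rpow_const fun r => Or.inr hp.le
    rw [← lintegral_radial hn (F := fun r => |bx' φ e r| ^ p) hc.measurable, leb]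
    refine lintegral_congr fun x => ?_
    rw [volDensity_flat (hM x), mul_one, gradNorm_bx (hM x) hφ he.1]
  have hsup : Function.support (fun x : E n => bx φ e ‖x‖) ⊆ closedBall 0 (R - e) := by
    intro x hx
    rw [mem_closedBall_zero_iff]
    by_contra hcon
    exact hx (bx_zero he.1 hφR (not_le.1 hcon).le)
  have hts : tsupport (fun x : E n => bx φ e ‖x‖) ⊆ closedBall 0 (R - e) :=
    closure_minimal hsup isClosed_closedBall
  have hadm : ContDiff ℝ 1 (fun x : E n => bx φ e ‖x‖) ∧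
      HasCompactSupport (fun x : E n => bx φ e ‖x‖) ∧
      tsupport (fun x : E n => bx φ e ‖x‖) ⊆ ball 0 R ∧
      ∫⁻ x, ENNReal.ofReal (|bx φ e ‖x‖| ^ q * volDensity M x) ∂leb n ≠ 0 := by
    refine ⟨contDiff_radial hφ he.1, ?_, ?_, ?_⟩
    · exact (isCompact_closedBall (0 : E n) (R - e)).of_isClosed_subset (isClosed_tsupport _) hts
    · exact hts.trans (closedBall_subset_ball (by linarith [he.1]))
    · rw [hmE]
      exact hpos.ne'
  refine (iInf₂_le (fun x : E n => bx φ e ‖x‖) hadm).trans (le_of_eq ?_)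
  rw [hmE, heE]

end Vale.Agent.P219.Co
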