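import Mathlib

/-!
# One-dimensional Fatou argument for the Polya-Szego inequality
-/

open MeasureTheory Set Filter Topology
open scoped ENNReal

namespace Vale.Agent.P219.Co

/-- difference quotients over intervals which straddle a point of differentiability -/
theorem tendsto_straddle {F : ℝ → ℝ} {r F' : ℝ} (hF : HasDerivAt F F' r) {a b : ℕ → ℝ}
    (ha : ∀ k, a k ≤ r) (hb : ∀ k, r < b k) (hab : Tendsto (fun k => b k - a k) atTop (𝓝 0)) :
    Tendsto (fun k => (F (b k) - F (a k)) / (b k - a k)) atTop (𝓝 F') := by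
  have hta : Tendsto a atTop (𝓝 r) := by
    have h0 : Tendsto (fun k => r - (b k - a k)) atTop (𝓝 r) := by
      simpa using tendsto_const_nhds.sub hab
    exact tendsto_of_tendsto_of_tendsto_of_le_of_le h0 tendsto_const_nhds
      (fun k => by have := hb k; simp only []; linarith) ha
  have htb : Tendsto b atTop (𝓝 r) := by
    have h0 : Tendsto (fun k => r + (b k - a k)) atTop (𝓝 r) := by
      simpa using tendsto_const_nhds.add hab
    exact tendsto_of_tendsto_of_tendsto_of_le_of_le tendsto_const_nhds h0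
      (fun k => (hb k).le) (fun k => by have := ha k; simp only []; linarith)
  have ho := hF.isLittleO
  have hoa := ho.comp_tendsto hta
  have hob := ho.comp_tendsto htb
  rw [Metric.tendsto_atTop]
  intro ε hε
  have hε2 : 0 < ε / 2 := half_pos hε
  have h1 := hoa.def hε2
  have h2 := hob.def hε2
  obtain ⟨N, hN⟩ := eventually_atTop.1 (h1.and h2)
  refine ⟨N, fun k hk => ?_⟩
  obtain ⟨e1, e2⟩ := hN k hk
  simp only [Function.comp_apply, smul_eq_mul, Real.norm_eq_abs] at e1 e2
  have hpos : 0 < b k - a k := by have := ha k; have := hb k; linarith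
  rw [Real.dist_eq]
  have e3 : (F (b k) - F (a k)) / (b k - a k) - F' =
      ((F (b k) - F r - (b k - r) * F') - (F (a k) - F r - (a k - r) * F')) / (b k - a k) := by
    field_simp
    ring
  rw [e3, abs_div, abs_of_pos hpos, div_lt_iff₀ hpos]
  have e4 : |a k - r| = r - a k := by
    rw [abs_sub_comm, abs_of_nonneg]; have := ha k; linarith
  have e5 : |b k - r| = b k - r := by
    rw [abs_of_nonneg]; have := hb k; linarith
  rw [e4] at e1
  rw [e5] at e2
  calc |F (b k) - F r - (b k - r) * F' - (F (a k) - F r - (a k - r) * F')|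
      ≤ |F (b k) - F r - (b k - r) * F'| + |F (a k) - F r - (a k - r) * F'| := abs_sub _ _
    _ ≤ ε / 2 * (b k - r) + ε / 2 * (r - a k) := add_le_add e2 e1
    _ = ε / 2 * (b k - a k) := by ring
    _ < ε * (b k - a k) := by nlinarith

/-- the partition sums control the energy of the rearrangement -/
theorem fatou_ps {F A V : ℝ → ℝ} (hF : AntitoneOn F (Ici 0)) (hA : Continuous A)
    (hA0 : ∀ r, 0 < r → 0 < A r) (hV : ∀ r, HasDerivAt V (A r) r) {p : ℝ} (hp : 1 ≤ p) {T : ℝ≥0∞}
    (h : ∀ (Δ : ℝ) (N : ℕ), 0 < Δ → ∑ i ∈ Finset.range N,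
      ENNReal.ofReal ((A (i * Δ) * (F (i * Δ) - F ((i + 1) * Δ))) ^ p /
        (V ((i + 1) * Δ) - V (i * Δ)) ^ (p - 1)) ≤ T) :
    ∫⁻ r in Ioi (0 : ℝ), ENNReal.ofReal (|deriv F r| ^ p * A r) ≤ T := by
  set D : ℕ → ℝ := fun k => 1 / ((k : ℝ) + 1) with hDdef
  have hD : ∀ k, 0 < D k := fun k => by positivity
  have hD0 : Tendsto D atTop (𝓝 0) := tendsto_one_div_add_atTop_nhds_zero_nat
  set t : ℕ → ℕ → ℝ := fun k i => (A (i * D k) * (F (i * D k) - F ((i + 1) * D k))) ^ p /
        (V ((i + 1) * D k) - V (i * D k)) ^ (p - 1) with htdef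
  set Φ : ℕ → ℝ → ℝ≥0∞ := fun k r => ENNReal.ofReal (t k ⌊r / D k⌋₊ / D k) with hΦdef
  have hΦm : ∀ k, Measurable (Φ k) := by
    intro k
    exact (measurable_from_nat (f := fun i : ℕ => ENNReal.ofReal (t k i / D k))).comp
      (Nat.measurable_floor.comp (measurable_id.div_const (D k)))
  -- the integrals
  have hint : ∀ k, ∫⁻ r in Ioi (0 : ℝ), Φ k r ≤ T := by
    intro k
    have hcov : Ioi (0 : ℝ) ⊆ ⋃ i : ℕ, Ico ((i : ℝ) * D k) (((i : ℝ) + 1) * D k) := by
      intro r hr
      rw [mem_Ioi] at hr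
      refine mem_iUnion.2 ⟨⌊r / D k⌋₊, ?_, ?_⟩
      · have := Nat.floor_le (div_nonneg hr.le (hD k).le)
        calc (⌊r / D k⌋₊ : ℝ) * D k ≤ r / D k * D k := by
              exact mul_le_mul_of_nonneg_right this (hD k).le
          _ = r := by rw [div_mul_cancel₀ _ (hD k).ne']
      · have := Nat.lt_floor_add_one (r / D k)
        calc r = r / D k * D k := by rw [div_mul_cancel₀ _ (hD k).ne']
          _ < ((⌊r / D k⌋₊ : ℝ) + 1) * D k := mul_lt_mul_of_pos_right this (hD k)
    have hone : ∀ i : ℕ, ∫⁻ r in Ico ((i : ℝ) * D k) (((i : ℝ) + 1) * D k), Φ k r =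
        ENNReal.ofReal (t k i) := by
      intro i
      have hfl : ∀ r ∈ Ico ((i : ℝ) * D k) (((i : ℝ) + 1) * D k),
          Φ k r = ENNReal.ofReal (t k i / D k) := by
        intro r hr
        have h1 : ⌊r / D k⌋₊ = i := by
          rw [Nat.floor_eq_iff (div_nonneg (le_trans (by have := (hD k).le; positivity) hr.1)
            (hD k).le)]
          constructor
          · rw [le_div_iff₀ (hD k)]; exact hr.1
          · rw [div_lt_iff₀ (hD k)]; exact hr.2
        simp only [hΦdef, h1]
      rw [setLIntegral_congr_fun measurableSet_Ico hfl, setLIntegral_const, Real.volume_Ico,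
        ← ENNReal.ofReal_mul' (by nlinarith [hD k])]
      congr 1
      have := (hD k).ne'
      field_simp
      ring
    calc ∫⁻ r in Ioi (0 : ℝ), Φ k r
        ≤ ∫⁻ r in ⋃ i : ℕ, Ico ((i : ℝ) * D k) (((i : ℝ) + 1) * D k), Φ k r :=
          lintegral_mono_set hcov
      _ ≤ ∑' i : ℕ, ∫⁻ r in Ico ((i : ℝ) * D k) (((i : ℝ) + 1) * D k), Φ k r :=
          lintegral_iUnion_le _ _
      _ = ∑' i : ℕ, ENNReal.ofReal (t k i) := by simp only [hone]
      _ ≤ T := ENNReal.tsum_le_of_sum_range_le (fun N => h (D k) N (hD k))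
  -- almost everywhere convergence
  have hae : ∀ᵐ r ∂(volume.restrict (Ioi (0 : ℝ))),
      Tendsto (fun k => Φ k r) atTop (𝓝 (ENNReal.ofReal (|deriv F r| ^ p * A r))) := by
    have hmono : MonotoneOn (fun r => -F r) (Ioi (0 : ℝ)) := fun x hx y hy hxy =>
      neg_le_neg (hF (Ioi_subset_Ici_self hx) (Ioi_subset_Ici_self hy) hxy)
    have h1 := hmono.ae_differentiableWithinAt measurableSet_Ioi
    filter_upwards [h1, self_mem_ae_restrict measurableSet_Ioi] with r hdr hr
    rw [mem_Ioi] at hr
    have hd : DifferentiableAt ℝ F r := by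
      have h2 : DifferentiableAt ℝ (fun r => -F r) r :=
        hdr.differentiableAt (Ioi_mem_nhds hr)
      simpa using h2.neg
    set a : ℕ → ℝ := fun k => (⌊r / D k⌋₊ : ℝ) * D k with hadef
    set b : ℕ → ℝ := fun k => ((⌊r / D k⌋₊ : ℝ) + 1) * D k with hbdef
    have ha : ∀ k, a k ≤ r := by
      intro k
      have := Nat.floor_le (div_nonneg hr.le (hD k).le)
      calc (⌊r / D k⌋₊ : ℝ) * D k ≤ r / D k * D k := mul_le_mul_of_nonneg_right this (hD k).le
        _ = r := by rw [div_mul_cancel₀ _ (hD k).ne']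
    have hb : ∀ k, r < b k := by
      intro k
      have := Nat.lt_floor_add_one (r / D k)
      calc r = r / D k * D k := by rw [div_mul_cancel₀ _ (hD k).ne']
        _ < ((⌊r / D k⌋₊ : ℝ) + 1) * D k := mul_lt_mul_of_pos_right this (hD k)
    have ha0 : ∀ k, 0 ≤ a k := fun k => mul_nonneg (Nat.cast_nonneg _) (hD k).le
    have hba : ∀ k, b k - a k = D k := fun k => by simp only [hadef, hbdef]; ring
    have hab : Tendsto (fun k => b k - a k) atTop (𝓝 0) := by simp only [hba]; exact hD0
    have hta : Tendsto a atTop (𝓝 r) := by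
      have h0 : Tendsto (fun k => r - (b k - a k)) atTop (𝓝 r) := by
        simpa using tendsto_const_nhds.sub hab
      exact tendsto_of_tendsto_of_tendsto_of_le_of_le h0 tendsto_const_nhds
        (fun k => by have := hb k; simp only []; linarith) ha
    have hqF := tendsto_straddle hd.hasDerivAt ha hb hab
    have hqV := tendsto_straddle (hV r) ha hb hab
    have hAa : Tendsto (fun k => A (a k)) atTop (𝓝 (A r)) := (hA.tendsto r).comp hta
    have hAr := hA0 r hr
    have hqF0 : ∀ k, 0 ≤ -((F (b k) - F (a k)) / (b k - a k)) := by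
      intro k
      rw [← neg_div]
      apply div_nonneg
      · have := hF (show a k ∈ Ici 0 from ha0 k)
          (show b k ∈ Ici 0 from (ha0 k).trans ((ha k).trans (hb k).le)) ((ha k).trans (hb k).le)
        linarith
      · rw [hba]; exact (hD k).le
    have hF'0 : 0 ≤ -deriv F r := ge_of_tendsto' hqF.neg hqF0
    have hlim : Tendsto (fun k => (A (a k) * -((F (b k) - F (a k)) / (b k - a k))) ^ p /
        ((V (b k) - V (a k)) / (b k - a k)) ^ (p - 1)) atTop
        (𝓝 ((A r * -deriv F r) ^ p / A r ^ (p - 1))) := by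
      refine Tendsto.div ?_ ?_ (Real.rpow_pos_of_pos hAr _).ne'
      · exact (hAa.mul hqF.neg).rpow_const (Or.inr (by linarith))
      · exact hqV.rpow_const (Or.inl hAr.ne')
    have hval : (A r * -deriv F r) ^ p / A r ^ (p - 1) = |deriv F r| ^ p * A r := by
      rw [Real.mul_rpow hAr.le hF'0, abs_of_nonpos (by linarith), mul_div_right_comm,
        ← Real.rpow_sub hAr]
      rw [show p - (p - 1) = 1 by ring, Real.rpow_one, mul_comm]
    rw [hval] at hlim
    refine ENNReal.tendsto_ofReal (hlim.congr' ?_)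
    filter_upwards [hAa.eventually (lt_mem_nhds hAr), hqV.eventually (lt_mem_nhds hAr)] with k hk1 hk2
    have hDk := hD k
    have e1 : A (a k) * (F (a k) - F (b k)) =
        (A (a k) * -((F (b k) - F (a k)) / (b k - a k))) * D k := by
      rw [hba]; field_simp; ring
    have e2 : V (b k) - V (a k) = (V (b k) - V (a k)) / (b k - a k) * D k := by
      rw [hba]; field_simp
    have e3 : t k ⌊r / D k⌋₊ = (A (a k) * (F (a k) - F (b k))) ^ p /
        (V (b k) - V (a k)) ^ (p - 1) := rfl
    rw [e3, e1, Real.mul_rpow (mul_nonneg hk1.le (hqF0 k)) hDk.le]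
    conv_rhs => rw [e2, Real.mul_rpow hk2.le hDk.le]
    have e4 : D k ^ p = D k ^ (p - 1) * D k := by
      rw [← Real.rpow_add_one hDk.ne']; congr 1; ring
    rw [e4]
    have h5 : 0 < D k ^ (p - 1) := Real.rpow_pos_of_pos hDk _
    have h6 : 0 < ((V (b k) - V (a k)) / (b k - a k)) ^ (p - 1) := Real.rpow_pos_of_pos hk2 _
    field_simp
  calc ∫⁻ r in Ioi (0 : ℝ), ENNReal.ofReal (|deriv F r| ^ p * A r)
      = ∫⁻ r in Ioi (0 : ℝ), liminf (fun k => Φ k r) atTop := by
        refine lintegral_congr_ae ?_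
        filter_upwards [hae] with r hr using hr.liminf_eq.symm
    _ ≤ liminf (fun k => ∫⁻ r in Ioi (0 : ℝ), Φ k r) atTop := lintegral_liminf_le hΦm
    _ ≤ T := by
        refine liminf_le_of_frequently_le' (Frequently.of_forall hint)

end Vale.Agent.P219.Co
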