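import Vale.Agent.P219.CoDefs

/-!
# Polar coordinates and radial functions on `ℝⁿ`
-/

open MeasureTheory Set Filter Topology Metric
open scoped ENNReal NNReal ContDiff

namespace Vale.Agent.P219.Co

theorem ball_eq_omega (n : ℕ) : (volume : Measure (E n)) (ball 0 1) = ENNReal.ofReal (omega n) := by
  have h : {x : E n | ∑ i, x i ^ 2 < 1} = ball 0 1 := by
    ext x
    rw [mem_ball_zero_iff, mem_ofPred_eq, EuclideanSpace.norm_eq,
      Real.sqrt_lt' one_pos]
    simp [Real.norm_eq_abs, sq_abs]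
  rw [omega, leb, h, ENNReal.ofReal_toReal measure_ball_lt_top.ne]

theorem lintegral_norm {n : ℕ} (hn : 1 ≤ n) {F : ℝ → ℝ≥0∞} (hF : Measurable F) :
    ∫⁻ x : E n, F ‖x‖ = (n : ℝ≥0∞) * ENNReal.ofReal (omega n) *
      ∫⁻ r in Ioi (0 : ℝ), ENNReal.ofReal (r ^ (n - 1)) * F r := by
  have : Nonempty (Fin n) := ⟨⟨0, hn⟩⟩
  have : Nontrivial (E n) := inferInstance
  set μ : Measure (E n) := volume with hμ
  have hd : Module.finrank ℝ (E n) = n := by simp
  calc ∫⁻ x, F ‖x‖ ∂μ = ∫⁻ x in ({0}ᶜ : Set (E n)), F ‖x‖ ∂μ := by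
        rw [restrict_compl_singleton]
    _ = ∫⁻ x : ({0}ᶜ : Set (E n)), F ‖x.1‖ ∂(μ.comap (↑)) :=
        (lintegral_subtype_comap (measurableSet_singleton _).compl fun x : E n => F ‖x‖).symm
    _ = ∫⁻ y, F y.2 ∂(μ.toSphere.prod (Measure.volumeIoiPow (Module.finrank ℝ (E n) - 1))) := by
        have := (μ.measurePreserving_homeomorphUnitSphereProd).lintegral_comp_emb
          (Homeomorph.measurableEmbedding _) (fun y => F (y.2 : ℝ))
        simpa using this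
    _ = μ.toSphere univ *
        ∫⁻ r : Ioi (0 : ℝ), F r ∂(Measure.volumeIoiPow (Module.finrank ℝ (E n) - 1)) := by
        rw [lintegral_prod _ (by fun_prop)]
        simp only [lintegral_const]
        rw [mul_comm]
    _ = _ := by
        rw [μ.toSphere_apply_univ, hd, hμ, ball_eq_omega, Measure.volumeIoiPow,
          lintegral_withDensity_eq_lintegral_mul _ (by fun_prop) (by fun_prop)]
        congr 1
        exact lintegral_subtype_comap measurableSet_Ioi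
          fun r : ℝ => ENNReal.ofReal (r ^ (n - 1)) * F r

theorem modelArea_zero (n : ℕ) (r : ℝ) : modelArea n 0 r = n * omega n * r ^ (n - 1) := by
  simp [modelArea, sn]

theorem omega_nonneg' (n : ℕ) : 0 ≤ omega n := ENNReal.toReal_nonneg

/-- Integrals of radial functions, flat metric. -/
theorem lintegral_radial {n : ℕ} (hn : 1 ≤ n) {F : ℝ → ℝ} (hF : Measurable F) :
    ∫⁻ x : E n, ENNReal.ofReal (F ‖x‖) =
      ∫⁻ r in Ioi (0 : ℝ), ENNReal.ofReal (F r * modelArea n 0 r) := by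
  rw [lintegral_norm hn (F := fun r => ENNReal.ofReal (F r)) (by fun_prop),
    ← lintegral_const_mul _ (by fun_prop)]
  refine setLIntegral_congr_fun measurableSet_Ioi fun r hr => ?_
  have hr0 : (0 : ℝ) ≤ r ^ (n - 1) := pow_nonneg (le_of_lt hr) _
  have h1 : (n : ℝ≥0∞) = ENNReal.ofReal n := by simp
  rw [modelArea_zero, h1, ← ENNReal.ofReal_mul (Nat.cast_nonneg n), ← mul_assoc,
    ← ENNReal.ofReal_mul (mul_nonneg (Nat.cast_nonneg n) (omega_nonneg' n)),
    ← ENNReal.ofReal_mul (mul_nonneg (mul_nonneg (Nat.cast_nonneg n) (omega_nonneg' n)) hr0)]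
  congr 1
  ring

/-- The derivative of a radial function. -/
theorem hasFDerivAt_radial {n : ℕ} {ψ : ℝ → ℝ} {x : E n} (hx : x ≠ 0) {c : ℝ}
    (h : HasDerivAt ψ c ‖x‖) :
    HasFDerivAt (fun y : E n => ψ ‖y‖) ((c / ‖x‖) • innerSL ℝ x) x := by
  have hx0 : 0 < ‖x‖ := norm_pos_iff.2 hx
  have h1 : HasFDerivAt (fun y : E n => ‖y‖ ^ 2) (2 • innerSL ℝ x) x :=
    (hasStrictFDerivAt_norm_sq x).hasFDerivAt
  have h2 : HasFDerivAt (fun y : E n => √(‖y‖ ^ 2)) ((1 / (2 * √(‖x‖ ^ 2))) • (2 • innerSL ℝ x)) x :=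
    h1.sqrt (by positivity)
  have h3 : (fun y : E n => √(‖y‖ ^ 2)) = fun y => ‖y‖ := by
    funext y
    exact Real.sqrt_sq (norm_nonneg _)
  rw [h3, Real.sqrt_sq hx0.le] at h2
  have h4 := HasDerivAt.comp_hasFDerivAt x h h2
  refine h4.congr_fderiv ?_
  ext v
  simp only [smul_apply, smul_eq_mul, nsmul_eq_mul, Nat.cast_ofNat]
  field_simp

theorem pd_radial {n : ℕ} {ψ : ℝ → ℝ} {x : E n} (hx : x ≠ 0) {c : ℝ}
    (h : HasDerivAt ψ c ‖x‖) (i : Fin n) :
    pd i (fun y : E n => ψ ‖y‖) x = c / ‖x‖ * x i := by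
  rw [pd, ((hasFDerivAt_radial hx h).hasLineDerivAt _).lineDeriv]
  simp [EuclideanSpace.inner_single_right]

theorem gradNorm_flat {n : ℕ} {M : RiemMetric n} {x : E n} (hM : M.g x = 1) (f : E n → ℝ) :
    gradNorm M f x = √(∑ i, pd i f x ^ 2) := by
  rw [gradNorm, hM]
  simp [dotProduct, sq]

theorem volDensity_flat {n : ℕ} {M : RiemMetric n} {x : E n} (hM : M.g x = 1) :
    volDensity M x = 1 := by
  simp [volDensity, hM]

theorem gradNorm_radial {n : ℕ} {M : RiemMetric n} {x : E n} (hM : M.g x = 1) {ψ : ℝ → ℝ}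
    (hx : x ≠ 0) {c : ℝ} (h : HasDerivAt ψ c ‖x‖) :
    gradNorm M (fun y : E n => ψ ‖y‖) x = |c| := by
  have hx0 : 0 < ‖x‖ := norm_pos_iff.2 hx
  have h1 : ∑ i, x i ^ 2 = ‖x‖ ^ 2 := by
    rw [EuclideanSpace.norm_sq_eq]
    simp [Real.norm_eq_abs, sq_abs]
  rw [gradNorm_flat hM]
  have h2 : ∑ i, pd i (fun y : E n => ψ ‖y‖) x ^ 2 = c ^ 2 := by
    simp only [pd_radial hx h, mul_pow]
    rw [← Finset.mul_sum, h1]
    field_simp
  rw [h2, Real.sqrt_sq_eq_abs]

end Vale.Agent.P219.Co
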