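import Vale.Agent.P219.H732.FK

/-!
# The model eigenvalue is positive and finite
-/

open MeasureTheory Set Filter Topology
open scoped ENNReal NNReal

namespace Vale.Agent.P219.Co

/-- power mean inequality on an interval -/
theorem lintegral_pow_le_of_Ioc {g : ℝ → ℝ≥0∞} (hg : Measurable g) {p a b : ℝ} (hp : 1 ≤ p)
    (hab : a ≤ b) :
    (∫⁻ s in Ioc a b, g s) ^ p ≤ ENNReal.ofReal ((b - a) ^ (p - 1)) * ∫⁻ s in Ioc a b, g s ^ p := by
  rcases hp.eq_or_lt with h1 | h1
  · subst h1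
    simp
  · have hq : p.HolderConjugate (Real.conjExponent p) := Real.HolderConjugate.conjExponent h1
    have h2 := ENNReal.lintegral_mul_le_Lp_mul_Lq (volume.restrict (Ioc a b)) hq hg.aemeasurable
      (aemeasurable_const (b := (1 : ℝ≥0∞)))
    simp only [Pi.mul_apply, mul_one, ENNReal.one_rpow, lintegral_const, one_mul,
      Measure.restrict_apply MeasurableSet.univ, univ_inter, Real.volume_Ioc] at h2
    have hp0 : 0 < p := by linarith
    have h3 := ENNReal.rpow_le_rpow h2 hp0.le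
    rw [ENNReal.mul_rpow_of_nonneg _ _ hp0.le, ← ENNReal.rpow_mul, one_div_mul_cancel hp0.ne',
      ENNReal.rpow_one, ← ENNReal.rpow_mul] at h3
    refine h3.trans (le_of_eq ?_)
    rw [mul_comm]
    congr 1
    have hq0 := hq.symm.pos
    have e1 : 1 / Real.conjExponent p * p = p - 1 := by
      have := hq.inv_add_inv_eq_one
      field_simp at this ⊢
      nlinarith
    rw [e1, ENNReal.ofReal_rpow_of_nonneg (sub_nonneg.2 hab) (by linarith)]

variable {n : ℕ} {κ p R : ℝ}

/-- the energies of Lipschitz functions are finite -/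
theorem energy_ne_top (hp : 1 ≤ p) (hR : 0 < R)
    (hAm : MonotoneOn (modelArea n κ) (Ici 0))
    {φ : ℝ → ℝ} (h1 : ∃ C : ℝ≥0, LipschitzWith C φ) (h2 : ∀ r, R ≤ r → φ r = 0) :
    ∫⁻ r in Ioi (0 : ℝ), ENNReal.ofReal (|deriv φ r| ^ p * modelArea n κ r) ≠ ∞ := by
  obtain ⟨C, hC⟩ := h1
  have hp0 : 0 < p := by linarith
  have hb : ∀ r ∈ Ioi (0 : ℝ), ENNReal.ofReal (|deriv φ r| ^ p * modelArea n κ r) ≤
      (Ioc (0 : ℝ) R).indicator (fun _ => ENNReal.ofReal ((C : ℝ) ^ p * |modelArea n κ R|)) r := by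
    intro r hr
    by_cases h : r ≤ R
    · rw [indicator_of_mem (show r ∈ Ioc (0 : ℝ) R from ⟨hr, h⟩)]
      refine ENNReal.ofReal_le_ofReal ?_
      have hd : |deriv φ r| ≤ C := by
        have := norm_deriv_le_of_lipschitz hC (x₀ := r)
        simpa [Real.norm_eq_abs] using this
      have e1 : |deriv φ r| ^ p ≤ (C : ℝ) ^ p := Real.rpow_le_rpow (abs_nonneg _) hd hp0.le
      have e2 : modelArea n κ r ≤ |modelArea n κ R| :=
        (hAm (mem_Ici.2 (le_of_lt hr)) (mem_Ici.2 hR.le) h).trans (le_abs_self _)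
      calc |deriv φ r| ^ p * modelArea n κ r ≤ |deriv φ r| ^ p * |modelArea n κ R| :=
            mul_le_mul_of_nonneg_left e2 (Real.rpow_nonneg (abs_nonneg _) _)
        _ ≤ _ := mul_le_mul_of_nonneg_right e1 (abs_nonneg _)
    · have h3 : deriv φ r = 0 := by
        have : φ =ᶠ[𝓝 r] fun _ => (0 : ℝ) := by
          filter_upwards [Ioi_mem_nhds (not_le.1 h)] with x hx
          exact h2 x (le_of_lt hx)
        rw [this.deriv_eq, deriv_const]
      rw [h3, abs_zero, Real.zero_rpow hp0.ne', zero_mul, ENNReal.ofReal_zero]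
      exact zero_le
  refine ne_top_of_le_ne_top ?_ (setLIntegral_mono' measurableSet_Ioi hb)
  refine ne_top_of_le_ne_top ?_ (setLIntegral_le_lintegral _ _)
  rw [lintegral_indicator measurableSet_Ioc, setLIntegral_const]
  exact ENNReal.mul_ne_top ENNReal.ofReal_ne_top (by simp)

/-- the Rayleigh quotients are at least `R⁻ᵖ` -/
theorem rayleigh_lower (hp : 1 ≤ p) (hR : 0 < R)
    (hAm : MonotoneOn (modelArea n κ) (Ici 0)) (hA0 : ∀ r, 0 < r → 0 < modelArea n κ r)
    {φ : ℝ → ℝ} (h1 : ∃ C : ℝ≥0, LipschitzWith C φ) (h2 : ∀ r, R ≤ r → φ r = 0) :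
    ∫⁻ r in Ioi (0 : ℝ), ENNReal.ofReal (|φ r| ^ p * modelArea n κ r) ≤
      ENNReal.ofReal (R ^ p) *
        ∫⁻ r in Ioi (0 : ℝ), ENNReal.ofReal (|deriv φ r| ^ p * modelArea n κ r) := by
  obtain ⟨C, hC⟩ := h1
  have hp0 : 0 < p := by linarith
  set N : ℝ≥0∞ := ∫⁻ r in Ioi (0 : ℝ), ENNReal.ofReal (|deriv φ r| ^ p * modelArea n κ r) with hN
  set g : ℝ → ℝ≥0∞ := fun s => ENNReal.ofReal |deriv φ s| with hg
  have hgm : Measurable g := by
    have : Measurable fun s => |deriv φ s| := by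
      simpa [Real.norm_eq_abs] using (measurable_deriv φ).norm
    exact this.ennreal_ofReal
  -- pointwise bound
  have hpt : ∀ r ∈ Ioc (0 : ℝ) R, ENNReal.ofReal (|φ r| ^ p * modelArea n κ r) ≤
      ENNReal.ofReal (R ^ (p - 1)) * N := by
    intro r hr
    have hac : AbsolutelyContinuousOnInterval φ r R :=
      (hC.lipschitzOnWith (s := uIcc r R)).absolutelyContinuousOnInterval
    have hftc := hac.integral_deriv_eq_sub
    have e1 : |φ r| ≤ ∫ s in r..R, |deriv φ s| := by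
      have h3 : |∫ s in r..R, deriv φ s| = |φ r| := by
        rw [hftc, h2 R le_rfl, zero_sub, abs_neg]
      rw [← h3]
      exact intervalIntegral.abs_integral_le_integral_abs hr.2
    have hii : IntegrableOn (fun s => |deriv φ s|) (Ioc r R) volume := by
      have := hac.intervalIntegrable_deriv.abs
      rwa [intervalIntegrable_iff_integrableOn_Ioc_of_le hr.2] at this
    have e2 : ENNReal.ofReal |φ r| ≤ ∫⁻ s in Ioc r R, g s := by
      refine (ENNReal.ofReal_le_ofReal e1).trans (le_of_eq ?_)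
      rw [intervalIntegral.integral_of_le hr.2, ofReal_integral_eq_lintegral_ofReal hii
        (Eventually.of_forall fun s => abs_nonneg _)]
    have e3 : ENNReal.ofReal (|φ r| ^ p) ≤
        ENNReal.ofReal (R ^ (p - 1)) * ∫⁻ s in Ioc r R, g s ^ p := by
      rw [← ENNReal.ofReal_rpow_of_nonneg (abs_nonneg _) hp0.le]
      refine (ENNReal.rpow_le_rpow e2 hp0.le).trans ((lintegral_pow_le_of_Ioc hgm hp hr.2).trans ?_)
      refine mul_le_mul_left (ENNReal.ofReal_le_ofReal ?_) _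
      exact Real.rpow_le_rpow (sub_nonneg.2 hr.2) (by linarith [hr.1]) (by linarith)
    rw [ENNReal.ofReal_mul (Real.rpow_nonneg (abs_nonneg _) _)]
    refine (mul_le_mul_left e3 _).trans ?_
    rw [mul_assoc]
    refine mul_le_mul_right ?_ _
    rw [← lintegral_mul_const' _ _ ENNReal.ofReal_ne_top, hN]
    have hsub : Ioc r R ⊆ Ioi (0 : ℝ) := fun x hx => hr.1.trans hx.1
    refine le_trans ?_ (lintegral_mono_set hsub)
    refine setLIntegral_mono' measurableSet_Ioc fun s hs => ?_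
    rw [hg]
    simp only []
    rw [ENNReal.ofReal_rpow_of_nonneg (abs_nonneg _) hp0.le,
      ← ENNReal.ofReal_mul (Real.rpow_nonneg (abs_nonneg _) _)]
    refine ENNReal.ofReal_le_ofReal (mul_le_mul_of_nonneg_left ?_
      (Real.rpow_nonneg (abs_nonneg _) _))
    exact hAm (mem_Ici.2 hr.1.le) (mem_Ici.2 (hr.1.trans hs.1).le) hs.1.le
  have hzero : ∀ r ∈ Ioi (0 : ℝ), ENNReal.ofReal (|φ r| ^ p * modelArea n κ r) ≤
      (Ioc (0 : ℝ) R).indicator (fun _ => ENNReal.ofReal (R ^ (p - 1)) * N) r := by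
    intro r hr
    by_cases h : r ≤ R
    · rw [indicator_of_mem (show r ∈ Ioc (0 : ℝ) R from ⟨hr, h⟩)]
      exact hpt r ⟨hr, h⟩
    · rw [h2 r (not_le.1 h).le, abs_zero, Real.zero_rpow hp0.ne', zero_mul, ENNReal.ofReal_zero]
      exact zero_le
  calc ∫⁻ r in Ioi (0 : ℝ), ENNReal.ofReal (|φ r| ^ p * modelArea n κ r)
      ≤ ∫⁻ r in Ioi (0 : ℝ), (Ioc (0 : ℝ) R).indicator
          (fun _ => ENNReal.ofReal (R ^ (p - 1)) * N) r := setLIntegral_mono' measurableSet_Ioi hzero
    _ ≤ ∫⁻ r, (Ioc (0 : ℝ) R).indicator (fun _ => ENNReal.ofReal (R ^ (p - 1)) * N) r :=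
        setLIntegral_le_lintegral _ _
    _ = ENNReal.ofReal (R ^ (p - 1)) * N * ENNReal.ofReal R := by
        rw [lintegral_indicator measurableSet_Ioc, setLIntegral_const, Real.volume_Ioc, sub_zero]
    _ = ENNReal.ofReal (R ^ p) * N := by
        rw [mul_right_comm, ← ENNReal.ofReal_mul (Real.rpow_nonneg hR.le _),
          ← Real.rpow_add_one hR.ne', sub_add_cancel]

/-- The model eigenvalue is at least `R⁻ᵖ`. -/
theorem le_ballEigen (hp : 1 ≤ p) (hR : 0 < R)
    (hAm : MonotoneOn (modelArea n κ) (Ici 0)) (hA0 : ∀ r, 0 < r → 0 < modelArea n κ r) :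
    ENNReal.ofReal (R ^ (-p)) ≤ ballEigen n κ p R := by
  refine le_iInf₂ fun φ hφ => ?_
  rw [ENNReal.le_div_iff_mul_le (Or.inl hφ.2.2) (Or.inr (energy_ne_top hp hR hAm hφ.1 hφ.2.1))]
  have h1 := rayleigh_lower hp hR hAm hA0 hφ.1 hφ.2.1
  calc ENNReal.ofReal (R ^ (-p)) * ∫⁻ r in Ioi (0 : ℝ), ENNReal.ofReal (|φ r| ^ p * modelArea n κ r)
      ≤ ENNReal.ofReal (R ^ (-p)) * (ENNReal.ofReal (R ^ p) *
        ∫⁻ r in Ioi (0 : ℝ), ENNReal.ofReal (|deriv φ r| ^ p * modelArea n κ r)) :=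
        mul_le_mul_right h1 _
    _ = _ := by
        rw [← mul_assoc, ← ENNReal.ofReal_mul (Real.rpow_nonneg hR.le _), ← Real.rpow_add hR,
          neg_add_cancel, Real.rpow_zero, ENNReal.ofReal_one, one_mul]

/-- The model eigenvalue is finite. -/
theorem ballEigen_ne_top (hp : 1 ≤ p) (hR : 0 < R) (hAc : Continuous (modelArea n κ))
    (hAm : MonotoneOn (modelArea n κ) (Ici 0)) (hA0 : ∀ r, 0 < r → 0 < modelArea n κ r) :
    ballEigen n κ p R ≠ ∞ := by
  set φ : ℝ → ℝ := fun r => max (R - r) 0 with hφ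
  have h1 : LipschitzWith 1 φ := by
    have : LipschitzWith 1 fun r : ℝ => R - r := by
      refine LipschitzWith.of_dist_le_mul fun x y => ?_
      rw [Real.dist_eq, Real.dist_eq, NNReal.coe_one, one_mul,
        show R - x - (R - y) = -(x - y) by ring, abs_neg]
    exact this.max_const 0
  have h2 : ∀ r, R ≤ r → φ r = 0 := fun r hr => max_eq_right (by linarith)
  have h3 : ∫⁻ r in Ioi (0 : ℝ), ENNReal.ofReal (|φ r| ^ p * modelArea n κ r) ≠ 0 := by
    intro h0
    have hm : Measurable fun r => ENNReal.ofReal (|φ r| ^ p * modelArea n κ r) := by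
      have : Continuous fun r => |φ r| ^ p * modelArea n κ r :=
        (h1.continuous.abs.rpow_const fun r => Or.inr (by linarith)).mul hAc
      exact (ENNReal.continuous_ofReal.comp this).measurable
    rw [lintegral_eq_zero_iff hm] at h0
    have h4 : ∀ᵐ r ∂(volume.restrict (Ioo (0 : ℝ) R)), False := by
      have hsub : Ioo (0 : ℝ) R ⊆ Ioi 0 := fun x hx => hx.1
      have h5 := ae_restrict_of_ae_restrict_of_subset hsub h0
      filter_upwards [h5, self_mem_ae_restrict measurableSet_Ioo] with r hr hr2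
      have h6 : 0 < |φ r| ^ p * modelArea n κ r := by
        have : 0 < φ r := lt_max_of_lt_left (by linarith [hr2.2])
        exact mul_pos (Real.rpow_pos_of_pos (abs_pos.2 this.ne') _) (hA0 r hr2.1)
      simp only [Pi.zero_apply, ENNReal.ofReal_eq_zero] at hr
      linarith
    rw [ae_iff] at h4
    simp at h4
    linarith
  have h4 : ballEigen n κ p R ≤
      (∫⁻ r in Ioi (0 : ℝ), ENNReal.ofReal (|deriv φ r| ^ p * modelArea n κ r)) /
      ∫⁻ r in Ioi (0 : ℝ), ENNReal.ofReal (|φ r| ^ p * modelArea n κ r) :=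
    iInf₂_le φ ⟨⟨1, h1⟩, h2, h3⟩
  refine ne_top_of_le_ne_top ?_ h4
  exact ENNReal.div_ne_top (energy_ne_top hp hR hAm ⟨1, h1⟩ h2) h3

end Vale.Agent.P219.Co
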