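import Vale.Agent.P219.CoDefs

/-!
# Two facts on the profile of the space forms
-/

open MeasureTheory Set Filter Topology Metric
open scoped ENNReal NNReal ContDiff

namespace Vale.Agent.P219.Co

namespace Prof732

variable {n : ℕ}

theorem omega_pos (n : ℕ) : 0 < omega n := by
  have h : {x : E n | ∑ i, x i ^ 2 < 1} = ball 0 1 := by
    ext x
    rw [mem_ball_zero_iff, mem_ofPred_eq, EuclideanSpace.norm_eq,
      Real.sqrt_lt' one_pos]
    simp [Real.norm_eq_abs, sq_abs]
  rw [omega, leb, h]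
  exact ENNReal.toReal_pos (measure_ball_pos _ _ one_pos).ne' measure_ball_lt_top.ne

/-- derivative of `sn` -/
noncomputable def cs (b r : ℝ) : ℝ := if b = 0 then 1 else Real.cosh (b * r)

theorem hasDerivAt_sn (b r : ℝ) : HasDerivAt (sn b) (cs b r) r := by
  unfold sn cs
  by_cases h : b = 0
  · simp only [h, if_true]
    exact hasDerivAt_id r
  · simp only [h, if_false]
    have h1 : HasDerivAt (fun r => Real.sinh (b * r)) (Real.cosh (b * r) * (b * 1)) r :=
      ((hasDerivAt_id r).const_mul b).sinh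
    have h2 := h1.div_const b
    refine h2.congr_deriv ?_
    field_simp

theorem one_le_cs (b r : ℝ) : 1 ≤ cs b r := by
  unfold cs
  split_ifs
  · exact le_rfl
  · exact Real.one_le_cosh _

theorem cs_cont (b : ℝ) : Continuous (cs b) := by
  unfold cs
  by_cases h : b = 0
  · simp only [h, if_true]
    exact continuous_const
  · simp only [h, if_false]
    fun_prop

theorem sn_cont' (b : ℝ) : Continuous (sn b) :=
  continuous_iff_continuousAt.2 fun r => (hasDerivAt_sn b r).continuousAt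

theorem sn_zero (b : ℝ) : sn b 0 = 0 := by
  unfold sn
  split_ifs <;> simp

theorem sn_mono (b : ℝ) : StrictMono (sn b) :=
  strictMono_of_hasDerivAt_pos (hasDerivAt_sn b) fun r => one_pos.trans_le (one_le_cs b r)

theorem sn_nonneg (b : ℝ) {r : ℝ} (hr : 0 ≤ r) : 0 ≤ sn b r := by
  rw [← sn_zero b]
  exact (sn_mono b).monotone hr

theorem sn_pos' (b : ℝ) {r : ℝ} (hr : 0 < r) : 0 < sn b r := by
  rw [← sn_zero b]
  exact sn_mono b hr

theorem area_mono (κ : ℝ) : MonotoneOn (modelArea n κ) (Ici 0) := by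
  intro r hr s hs hrs
  refine mul_le_mul_of_nonneg_left ?_ (mul_nonneg (Nat.cast_nonneg n) (omega_pos n).le)
  exact pow_le_pow_left₀ (sn_nonneg _ hr) ((sn_mono _).monotone hrs) _

theorem area_pos (hn : 1 ≤ n) (κ : ℝ) {r : ℝ} (hr : 0 < r) : 0 < modelArea n κ r := by
  have h2 : (0 : ℝ) < n := by exact_mod_cast hn
  exact mul_pos (mul_pos h2 (omega_pos n)) (pow_pos (sn_pos' _ hr) _)

theorem hasDerivAt_vol (κ r : ℝ) : HasDerivAt (modelVol n κ) (modelArea n κ r) r := by
  have hc : Continuous fun t => sn √(-κ) t ^ (n - 1) := (sn_cont' _).pow _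
  exact (intervalIntegral.integral_hasDerivAt_right (a := 0) (b := r)
    (hc.intervalIntegrable _ _) hc.aestronglyMeasurable.stronglyMeasurableAtFilter
    hc.continuousAt).const_mul (n * omega n)

theorem vol_cont (κ : ℝ) : Continuous (modelVol n κ) :=
  continuous_iff_continuousAt.2 fun r => (hasDerivAt_vol κ r).continuousAt

theorem vol_zero (n : ℕ) (κ : ℝ) : modelVol n κ 0 = 0 := by simp [modelVol]

theorem vol_strictMono (hn : 1 ≤ n) (κ : ℝ) : StrictMonoOn (modelVol n κ) (Ici 0) := by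
  refine strictMonoOn_of_deriv_pos (convex_Ici 0) (vol_cont κ).continuousOn fun r hr => ?_
  rw [interior_Ici] at hr
  rw [(hasDerivAt_vol κ r).deriv]
  exact area_pos hn κ hr

theorem vol_nonneg (hn : 1 ≤ n) (κ : ℝ) {r : ℝ} (hr : 0 ≤ r) : 0 ≤ modelVol n κ r := by
  rw [← vol_zero n κ]
  exact (vol_strictMono hn κ).monotoneOn (mem_Ici.2 le_rfl) (mem_Ici.2 hr) hr

theorem hasDerivAt_area (κ r : ℝ) : HasDerivAt (modelArea n κ)
    (n * omega n * (((n - 1 : ℕ) : ℝ) * sn √(-κ) r ^ (n - 1 - 1) * cs √(-κ) r)) r :=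
  ((hasDerivAt_sn √(-κ) r).pow (n - 1)).const_mul (n * omega n)

/-- `V ≤ ω snⁿ` -/
theorem vol_le (hn : 1 ≤ n) (κ : ℝ) {R : ℝ} (hR : 0 ≤ R) :
    modelVol n κ R ≤ omega n * sn √(-κ) R ^ n := by
  set b := √(-κ) with hb
  have hd : ∀ x, HasDerivAt (fun x => omega n * sn b x ^ n - modelVol n κ x)
      (omega n * ((n : ℝ) * sn b x ^ (n - 1) * cs b x) - modelArea n κ x) x := fun x =>
    (((hasDerivAt_sn b x).pow n).const_mul (omega n)).sub (hasDerivAt_vol κ x)
  have hm : MonotoneOn (fun x => omega n * sn b x ^ n - modelVol n κ x) (Ici 0) := by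
    refine monotoneOn_of_deriv_nonneg (convex_Ici 0)
      (fun x _ => (hd x).continuousAt.continuousWithinAt)
      (fun x _ => (hd x).differentiableAt.differentiableWithinAt) fun x hx => ?_
    rw [interior_Ici] at hx
    rw [(hd x).deriv]
    have h1 : modelArea n κ x = n * omega n * sn b x ^ (n - 1) := rfl
    have h2 : 0 ≤ n * omega n * sn b x ^ (n - 1) := by
      have := (omega_pos n).le
      have := sn_nonneg b (le_of_lt hx)
      positivity
    have h3 := one_le_cs b x
    rw [h1]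
    nlinarith [mul_nonneg h2 (sub_nonneg.2 h3)]
  have h := hm (mem_Ici.2 le_rfl) (mem_Ici.2 hR) hR
  simp only [vol_zero, sn_zero, sub_zero] at h
  rw [zero_pow (by omega), mul_zero] at h
  linarith

end Prof732

open Prof732 in
theorem profile_facts {n : ℕ} (hn : 2 ≤ n) {κ : ℝ} (_hκ : κ ≤ 0) {r : ℝ} (hr : 0 < r) :
    ∃ c C₁ μ : ℝ, 0 < c ∧ 0 ≤ C₁ ∧ 0 < μ ∧ μ ≤ modelVol n κ r ∧
      (∀ R, 0 ≤ R → modelVol n κ r - μ ≤ modelVol n κ R → modelVol n κ R ≤ modelVol n κ r →
        modelArea n κ r - C₁ * (modelVol n κ r - modelVol n κ R) ≤ modelArea n κ R) ∧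
      ∀ R, 0 ≤ R → c * modelVol n κ R ^ (((n : ℝ) - 1) / n) ≤ modelArea n κ R := by
  have hn1 : 1 ≤ n := by omega
  have hn0 : (0 : ℝ) < n := by exact_mod_cast hn1
  have hr2 : 0 < r / 2 := by positivity
  have hVm := vol_strictMono hn1 κ
  -- a bound of the derivative of the area
  obtain ⟨A', hA'0, hA'⟩ : ∃ A' : ℝ, 0 ≤ A' ∧ ∀ x ∈ Icc (r / 2) r, ‖n * omega n *
      (((n - 1 : ℕ) : ℝ) * sn √(-κ) x ^ (n - 1 - 1) * cs √(-κ) x)‖ ≤ A' := by
    have hc : Continuous fun x => n * omega n *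
        (((n - 1 : ℕ) : ℝ) * sn √(-κ) x ^ (n - 1 - 1) * cs √(-κ) x) := by
      have h1 := sn_cont' √(-κ)
      have h2 := cs_cont √(-κ)
      fun_prop
    obtain ⟨B, hB⟩ := isCompact_Icc.exists_bound_of_continuousOn (hc.continuousOn
      (s := Icc (r / 2) r))
    refine ⟨B, (norm_nonneg _).trans (hB r ⟨by linarith, le_rfl⟩), hB⟩
  have hAr : 0 < modelArea n κ (r / 2) := area_pos hn1 κ hr2
  refine ⟨n * omega n ^ (1 / (n : ℝ)), A' / modelArea n κ (r / 2),
    modelVol n κ r - modelVol n κ (r / 2),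
    mul_pos hn0 (Real.rpow_pos_of_pos (omega_pos n) _), div_nonneg hA'0 hAr.le,
    sub_pos.2 (hVm (mem_Ici.2 hr2.le) (mem_Ici.2 hr.le) (by linarith)),
    sub_le_self _ (vol_nonneg hn1 κ hr2.le), ?_, ?_⟩
  · intro R hR h1 h2
    have hR1 : r / 2 ≤ R := by
      by_contra hcon
      have := hVm (mem_Ici.2 hR) (mem_Ici.2 hr2.le) (not_le.1 hcon)
      linarith
    have hR2 : R ≤ r := by
      by_contra hcon
      have := hVm (mem_Ici.2 hr.le) (mem_Ici.2 hR) (not_le.1 hcon)
      linarith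
    have h3 : ‖modelArea n κ r - modelArea n κ R‖ ≤ A' * ‖r - R‖ :=
      (convex_Icc (r / 2) r).norm_image_sub_le_of_norm_hasDerivWithin_le
        (fun x _ => (hasDerivAt_area κ x).hasDerivWithinAt) hA' ⟨hR1, hR2⟩
        ⟨by linarith, le_rfl⟩
    rw [Real.norm_eq_abs, Real.norm_eq_abs, abs_of_nonneg (sub_nonneg.2 hR2)] at h3
    -- lower bound of the volume difference
    have h4 : modelArea n κ (r / 2) * (r - R) ≤ modelVol n κ r - modelVol n κ R := by
      have hd : ∀ x, HasDerivAt (fun x => modelVol n κ x - modelArea n κ (r / 2) * x)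
          (modelArea n κ x - modelArea n κ (r / 2) * 1) x := fun x =>
        (hasDerivAt_vol κ x).sub ((hasDerivAt_id x).const_mul _)
      have hm : MonotoneOn (fun x => modelVol n κ x - modelArea n κ (r / 2) * x)
          (Icc (r / 2) r) := by
        refine monotoneOn_of_deriv_nonneg (convex_Icc _ _)
          (fun x _ => (hd x).continuousAt.continuousWithinAt)
          (fun x _ => (hd x).differentiableAt.differentiableWithinAt) fun x hx => ?_
        rw [interior_Icc] at hx
        rw [(hd x).deriv, mul_one]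
        exact sub_nonneg.2 (area_mono κ (mem_Ici.2 hr2.le) (mem_Ici.2 (hr2.trans hx.1).le) hx.1.le)
      have h := hm ⟨hR1, hR2⟩ ⟨by linarith, le_rfl⟩ hR2
      simp only at h
      linarith
    have h5 : A' * (r - R) ≤ A' / modelArea n κ (r / 2) * (modelVol n κ r - modelVol n κ R) := by
      calc A' * (r - R) = A' / modelArea n κ (r / 2) * (modelArea n κ (r / 2) * (r - R)) := by
            field_simp
        _ ≤ _ := mul_le_mul_of_nonneg_left h4 (div_nonneg hA'0 hAr.le)
    have h6 := (le_abs_self _).trans h3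
    linarith
  · intro R hR
    have hs := sn_nonneg √(-κ) hR
    have hω := omega_pos n
    have hexp : 0 ≤ ((n : ℝ) - 1) / n := by
      have : (1 : ℝ) ≤ n := by exact_mod_cast hn1
      exact div_nonneg (by linarith) hn0.le
    have h1 : modelVol n κ R ^ (((n : ℝ) - 1) / n) ≤
        (omega n * sn √(-κ) R ^ n) ^ (((n : ℝ) - 1) / n) :=
      Real.rpow_le_rpow (vol_nonneg hn1 κ hR) (vol_le hn1 κ hR) hexp
    have h2 : (omega n * sn √(-κ) R ^ n) ^ (((n : ℝ) - 1) / n) =
        omega n ^ (((n : ℝ) - 1) / n) * sn √(-κ) R ^ (n - 1) := by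
      rw [Real.mul_rpow hω.le (pow_nonneg hs _)]
      congr 1
      rw [← Real.rpow_natCast, ← Real.rpow_mul hs, ← Real.rpow_natCast]
      congr 1
      rw [Nat.cast_sub hn1]
      field_simp
      simp
    have h3 : omega n ^ (1 / (n : ℝ)) * omega n ^ (((n : ℝ) - 1) / n) = omega n := by
      rw [← Real.rpow_add hω]
      have : 1 / (n : ℝ) + ((n : ℝ) - 1) / n = 1 := by field_simp; ring
      rw [this, Real.rpow_one]
    calc n * omega n ^ (1 / (n : ℝ)) * modelVol n κ R ^ (((n : ℝ) - 1) / n)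
        ≤ n * omega n ^ (1 / (n : ℝ)) *
          (omega n ^ (((n : ℝ) - 1) / n) * sn √(-κ) R ^ (n - 1)) := by
          rw [← h2]
          exact mul_le_mul_of_nonneg_left h1
            (mul_nonneg hn0.le (Real.rpow_nonneg hω.le _))
      _ = n * (omega n ^ (1 / (n : ℝ)) * omega n ^ (((n : ℝ) - 1) / n)) *
          sn √(-κ) R ^ (n - 1) := by ring
      _ = modelArea n κ R := by rw [h3]; rfl

end Vale.Agent.P219.Co
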