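import Vale.Agent.P219.H732.Polar
import Vale.Agent.P219.H732.Prof

/-!
# Volume and gradient of radial functions on the model spaces, in the ball chart
-/

open MeasureTheory Set Filter Topology Metric
open scoped ENNReal NNReal ContDiff

namespace Vale.Agent.P219.Co

namespace Rad732

open Prof732

theorem sum_sq {n : ℕ} (y : E n) : ∑ i, y i ^ 2 = ‖y‖ ^ 2 := by
  rw [EuclideanSpace.norm_sq_eq]
  simp [Real.norm_eq_abs, sq_abs]

theorem sqrt_model {K : ℝ} (hK : K ≤ 0) (t : ℝ) :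
    √(1 - K * sn √(-K) t ^ 2) = cs √(-K) t := by
  have h0 : 0 ≤ cs √(-K) t := zero_le_one.trans (one_le_cs _ _)
  have h1 : 1 - K * sn √(-K) t ^ 2 = cs √(-K) t ^ 2 := by
    rcases hK.eq_or_lt with h | h
    · subst h
      simp [cs]
    · have hb : √(-K) ≠ 0 := (Real.sqrt_pos.2 (by linarith)).ne'
      have hb2 : √(-K) ^ 2 = -K := Real.sq_sqrt (by linarith)
      have hKne : K ≠ 0 := h.ne
      unfold sn cs
      rw [if_neg hb, if_neg hb, div_pow, hb2, Real.cosh_sq]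
      field_simp
      ring
  rw [h1, Real.sqrt_sq h0]

theorem lintegral_Ioo_eq {f : ℝ → ℝ} (hf : Continuous f) (h0 : ∀ x, 0 ≤ x → 0 ≤ f x) {S : ℝ}
    (hS : 0 ≤ S) :
    ∫⁻ x in Ioo 0 S, ENNReal.ofReal (f x) = ENNReal.ofReal (∫ x in (0 : ℝ)..S, f x) := by
  rw [intervalIntegral.integral_of_le hS,
    ofReal_integral_eq_lintegral_ofReal
      ((hf.integrableOn_Icc (a := 0) (b := S)).mono_set Ioc_subset_Icc_self)
      ((ae_restrict_mem measurableSet_Ioc).mono fun x hx => h0 x hx.1.le),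
    Measure.restrict_congr_set Ioo_ae_eq_Ioc]

end Rad732

open Prof732 Rad732

theorem model_vol_radial {n : ℕ} (hn : 1 ≤ n) {K : ℝ} (hK : K ≤ 0) {r : ℝ} (hr : 0 ≤ r) :
    ∫⁻ y in {y : E n | ∑ i, y i ^ 2 < sn √(-K) r ^ 2},
      ENNReal.ofReal (1 / √(1 - K * ∑ m, y m ^ 2)) ∂leb n = ENNReal.ofReal (modelVol n K r) := by
  set b := √(-K) with hb
  have hS : 0 ≤ sn b r := sn_nonneg b hr
  set S := sn b r with hSdef
  have hset : {y : E n | ∑ i, y i ^ 2 < S ^ 2} = {y : E n | ‖y‖ < S} := by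
    ext y
    rw [mem_ofPred_eq, mem_ofPred_eq, sum_sq]
    exact pow_lt_pow_iff_left₀ (norm_nonneg _) hS two_ne_zero
  have hmeas : MeasurableSet {y : E n | ‖y‖ < S} :=
    measurableSet_lt measurable_norm measurable_const
  set F : ℝ → ℝ≥0∞ := (Iio S).indicator fun ρ => ENNReal.ofReal (1 / √(1 - K * ρ ^ 2)) with hF
  have hFm : Measurable F := Measurable.indicator (by fun_prop) measurableSet_Iio
  have hpos : ∀ ρ : ℝ, 0 < 1 - K * ρ ^ 2 := fun ρ => by
    nlinarith [mul_nonneg (neg_nonneg.2 hK) (sq_nonneg ρ)]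
  have hg : Continuous fun ρ : ℝ => ρ ^ (n - 1) * (1 / √(1 - K * ρ ^ 2)) := by
    have h1 : Continuous fun ρ : ℝ => √(1 - K * ρ ^ 2) := by fun_prop
    have h2 : ∀ ρ : ℝ, √(1 - K * ρ ^ 2) ≠ 0 := fun ρ => (Real.sqrt_pos.2 (hpos ρ)).ne'
    exact (continuous_pow _).mul (continuous_const.div h1 h2)
  have hsub : ∫ ρ in (0 : ℝ)..S, ρ ^ (n - 1) * (1 / √(1 - K * ρ ^ 2)) =
      ∫ t in (0 : ℝ)..r, sn b t ^ (n - 1) := by
    have h := intervalIntegral.integral_comp_mul_deriv (a := 0) (b := r)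
      (f := sn b) (f' := cs b) (g := fun ρ : ℝ => ρ ^ (n - 1) * (1 / √(1 - K * ρ ^ 2)))
      (fun x _ => hasDerivAt_sn b x) (cs_cont b).continuousOn hg
    rw [sn_zero] at h
    rw [hSdef, ← h]
    refine intervalIntegral.integral_congr fun t _ => ?_
    have hc : cs b t ≠ 0 := (one_pos.trans_le (one_le_cs b t)).ne'
    simp only [Function.comp_apply]
    rw [hb, sqrt_model hK, ← hb, mul_assoc, one_div, inv_mul_cancel₀ hc, mul_one]
  have hω : 0 ≤ (n : ℝ) * omega n := mul_nonneg (Nat.cast_nonneg n) (omega_nonneg' n)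
  calc ∫⁻ y in {y : E n | ∑ i, y i ^ 2 < S ^ 2},
      ENNReal.ofReal (1 / √(1 - K * ∑ m, y m ^ 2)) ∂leb n
      = ∫⁻ y : E n, F ‖y‖ := by
        rw [hset, leb, ← lintegral_indicator hmeas]
        refine lintegral_congr fun y => ?_
        by_cases h : ‖y‖ < S
        · rw [indicator_of_mem (show y ∈ {y : E n | ‖y‖ < S} from h), hF,
            indicator_of_mem (mem_Iio.2 h), sum_sq]
        · rw [indicator_of_notMem (show y ∉ {y : E n | ‖y‖ < S} from h), hF,
            indicator_of_notMem (fun h' => h (mem_Iio.1 h'))]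
    _ = (n : ℝ≥0∞) * ENNReal.ofReal (omega n) *
        ∫⁻ ρ in Ioi (0 : ℝ), ENNReal.ofReal (ρ ^ (n - 1)) * F ρ := lintegral_norm hn hFm
    _ = ENNReal.ofReal (n * omega n) *
        ∫⁻ ρ in Ioo (0 : ℝ) S, ENNReal.ofReal (ρ ^ (n - 1) * (1 / √(1 - K * ρ ^ 2))) := by
        have h1 : (n : ℝ≥0∞) = ENNReal.ofReal n := by simp
        rw [h1, ← ENNReal.ofReal_mul (Nat.cast_nonneg n)]
        congr 1
        rw [← lintegral_indicator measurableSet_Ioi, ← lintegral_indicator measurableSet_Ioo]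
        refine lintegral_congr fun ρ => ?_
        by_cases h0 : 0 < ρ
        · rw [indicator_of_mem (mem_Ioi.2 h0)]
          by_cases h : ρ < S
          · rw [indicator_of_mem (show ρ ∈ Ioo 0 S from ⟨h0, h⟩), hF,
              indicator_of_mem (mem_Iio.2 h), ENNReal.ofReal_mul (pow_nonneg h0.le _)]
          · rw [indicator_of_notMem (fun h' : ρ ∈ Ioo 0 S => h h'.2), hF,
              indicator_of_notMem (fun h' => h (mem_Iio.1 h')), mul_zero]
        · rw [indicator_of_notMem (fun h' => h0 (mem_Ioi.1 h')),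
            indicator_of_notMem (fun h' : ρ ∈ Ioo 0 S => h0 h'.1)]
    _ = ENNReal.ofReal (n * omega n) * ENNReal.ofReal (∫ t in (0 : ℝ)..r, sn b t ^ (n - 1)) := by
        rw [lintegral_Ioo_eq hg (fun x hx => mul_nonneg (pow_nonneg hx _) (by positivity)) hS, hsub]
    _ = ENNReal.ofReal (modelVol n K r) := by
        rw [← ENNReal.ofReal_mul hω, modelVol]

theorem model_grad_radial {n : ℕ} (hn : 2 ≤ n) {K : ℝ} (_hK : K ≤ 0) {r : ℝ} (hr : 0 < r) {Θ : ℝ → ℝ}
    (hΘ : ContDiff ℝ ∞ Θ) (hanti : Antitone Θ) (h01 : ∀ t, 0 ≤ Θ t ∧ Θ t ≤ 1) {s : ℝ}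
    (hs : s < sn √(-K) r ^ 2) (h0 : ∀ t, s ≤ t → Θ t = 0) :
    ∫⁻ y : E n, ENNReal.ofReal (2 * |deriv Θ (∑ i, y i ^ 2)| * √(∑ i, y i ^ 2)) ∂leb n ≤
      ENNReal.ofReal (modelArea n K r) := by
  set b := √(-K) with hb
  have hS : 0 < sn b r := sn_pos' b hr
  set S := sn b r with hSdef
  have hω : 0 ≤ (n : ℝ) * omega n := mul_nonneg (Nat.cast_nonneg n) (omega_nonneg' n)
  have hΘd : Continuous (deriv Θ) := hΘ.continuous_deriv (by simp)
  have hΘ1 : Differentiable ℝ Θ := hΘ.differentiable (by simp)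
  have hneg : ∀ t, deriv Θ t ≤ 0 := fun t => hanti.deriv_nonpos
  have hzero : ∀ t, s < t → deriv Θ t = 0 := fun t ht => by
    have h : Θ =ᶠ[𝓝 t] fun _ => 0 := by
      filter_upwards [Ioi_mem_nhds ht] with x hx
      exact h0 x (le_of_lt hx)
    rw [h.deriv_eq]
    simp
  set F : ℝ → ℝ≥0∞ := fun ρ => ENNReal.ofReal (2 * |deriv Θ (ρ ^ 2)| * ρ) with hF
  have hFm : Measurable F := by
    have h1 : Continuous fun ρ : ℝ => 2 * |deriv Θ (ρ ^ 2)| * ρ := by fun_prop
    exact h1.measurable.ennreal_ofReal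
  have hd : ∀ ρ : ℝ, HasDerivAt (fun ρ => -Θ (ρ ^ 2)) (-(deriv Θ (ρ ^ 2) * (2 * ρ))) ρ := fun ρ => by
    have h1 : HasDerivAt (fun ρ : ℝ => ρ ^ 2) (2 * ρ) ρ := by
      simpa using hasDerivAt_pow 2 ρ
    exact ((hΘ1 (ρ ^ 2)).hasDerivAt.comp ρ h1).neg
  have hc : Continuous fun ρ : ℝ => -(deriv Θ (ρ ^ 2) * (2 * ρ)) := by fun_prop
  calc ∫⁻ y : E n, ENNReal.ofReal (2 * |deriv Θ (∑ i, y i ^ 2)| * √(∑ i, y i ^ 2)) ∂leb n
      = ∫⁻ y : E n, F ‖y‖ := by
        rw [leb]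
        refine lintegral_congr fun y => ?_
        rw [hF, sum_sq, Real.sqrt_sq (norm_nonneg _)]
    _ = (n : ℝ≥0∞) * ENNReal.ofReal (omega n) *
        ∫⁻ ρ in Ioi (0 : ℝ), ENNReal.ofReal (ρ ^ (n - 1)) * F ρ := lintegral_norm (by omega) hFm
    _ ≤ ENNReal.ofReal (n * omega n) * ∫⁻ ρ in Ioo (0 : ℝ) S,
        ENNReal.ofReal (S ^ (n - 1)) * ENNReal.ofReal (-(deriv Θ (ρ ^ 2) * (2 * ρ))) := by
        have h1 : (n : ℝ≥0∞) = ENNReal.ofReal n := by simp
        rw [h1, ← ENNReal.ofReal_mul (Nat.cast_nonneg n)]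
        refine mul_le_mul_right ?_ _
        rw [← lintegral_indicator measurableSet_Ioi, ← lintegral_indicator measurableSet_Ioo]
        refine lintegral_mono fun ρ => ?_
        by_cases hρ : 0 < ρ
        · rw [indicator_of_mem (mem_Ioi.2 hρ)]
          by_cases h : ρ < S
          · rw [indicator_of_mem (show ρ ∈ Ioo 0 S from ⟨hρ, h⟩), hF]
            have h2 : 2 * |deriv Θ (ρ ^ 2)| * ρ = -(deriv Θ (ρ ^ 2) * (2 * ρ)) := by
              rw [abs_of_nonpos (hneg _)]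
              ring
            simp only
            rw [h2]
            exact mul_le_mul_left (ENNReal.ofReal_le_ofReal
              (pow_le_pow_left₀ hρ.le h.le _)) _
          · have h3 : s < ρ ^ 2 := hs.trans_le (pow_le_pow_left₀ hS.le (not_lt.1 h) 2)
            rw [hF]
            simp [hzero _ h3]
        · rw [indicator_of_notMem (fun h' => hρ (mem_Ioi.1 h'))]
          exact bot_le
    _ = ENNReal.ofReal (n * omega n) * (ENNReal.ofReal (S ^ (n - 1)) *
        ENNReal.ofReal (Θ 0 - Θ (S ^ 2))) := by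
        rw [lintegral_const_mul _ hc.measurable.ennreal_ofReal,
          lintegral_Ioo_eq hc (fun x hx => ?_) hS.le,
          intervalIntegral.integral_eq_sub_of_hasDerivAt (fun x _ => hd x)
            (hc.intervalIntegrable _ _)]
        · congr 3
          simp
          ring
        · nlinarith [mul_nonneg (neg_nonneg.2 (hneg (x ^ 2))) hx]
    _ ≤ ENNReal.ofReal (n * omega n) * (ENNReal.ofReal (S ^ (n - 1)) * 1) := by
        have h4 : ENNReal.ofReal (Θ 0 - Θ (S ^ 2)) ≤ 1 := by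
          rw [← ENNReal.ofReal_one]
          refine ENNReal.ofReal_le_ofReal ?_
          have := h01 0
          have := h01 (S ^ 2)
          linarith
        gcongr
    _ = ENNReal.ofReal (modelArea n K r) := by
        rw [mul_one, ← ENNReal.ofReal_mul hω, modelArea]

end Vale.Agent.P219.Co
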