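import Vale.Agent.P219.Bdl.B15

/-!
# `n = 2`: selection of boundary points for a minimising sequence of functions
-/

open MeasureTheory Set Filter Topology Metric
open scoped ENNReal ContDiff

namespace Vale.Agent.P219.N2

open Vale.Agent.P219.TP Vale.Agent.P219.TPH

namespace H732

variable {G : Geo 2} {k ct : ℝ}

/-- unit normal of the level lines -/
noncomputable def nu (G : Geo 2) (h : E 2 → ℝ) (y : E 2) : E 2 := ‖G.D h y‖⁻¹ • G.D h y

theorem D_eq (h : E 2 → ℝ) (y : E 2) : G.D h y = ‖G.D h y‖ • nu G h y := by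
  unfold nu
  by_cases h0 : G.D h y = 0
  · rw [h0]
    simp
  · rw [smul_smul, mul_inv_cancel₀ (norm_ne_zero_iff.2 h0), one_smul]

theorem norm_nu {h : E 2 → ℝ} {y : E 2} (h0 : G.D h y ≠ 0) : ‖nu G h y‖ = 1 := by
  unfold nu
  rw [norm_smul, norm_inv, norm_norm, inv_mul_cancel₀ (norm_ne_zero_iff.2 h0)]

/-- The total deficit of a minimising sequence tends to `0`. -/
theorem total_tendsto (hk : 0 ≤ k) (hG : MonoSn G k) (hct : k ≤ ct) {CC : ℝ} (hCC0 : 0 ≤ CC)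
    (hCC : ∀ N : E 2, ‖N‖ = 1 →
      ∫⁻ v, ENNReal.ofReal (‖v‖⁻¹ * max 0 (rB k ct N v)) ≤ ENNReal.ofReal CC)
    {A V : ℝ} (hA : 0 ≤ A) (hV : 0 ≤ V)
    (halg : A * (ct * V + CC) ≤ 2 * sig 2 * V + k ^ 2 * V ^ 2)
    {h : ℕ → E 2 → ℝ} (hh : ∀ j, ContDiff ℝ 1 (h j)) (hc : ∀ j, HasCompactSupport (h j))
    (h0 : ∀ j x, 0 ≤ h j x) (h1 : ∀ j x, h j x ≤ 1)
    (hper : ∀ δ > 0, ∀ᶠ j in atTop, G.per (h j) ≤ A + δ)
    (hV1 : Tendsto (fun j => V1 G (h j)) atTop (𝓝 V))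
    (hlay : Tendsto (fun j => G.vol.real {x | 0 < h j x ∧ h j x < 1}) atTop (𝓝 0)) :
    ∀ δ > 0, ∀ᶠ j in atTop,
      ∫⁻ y, ‖G.D (h j) y‖ₑ * rDD G k ct (h j) (nu G (h j) y) y ∂G.vol ≤ ENNReal.ofReal δ := by
  intro δ hδ
  have hct0 : 0 ≤ ct := hk.trans hct
  have hB : 0 ≤ ct * V + CC := by positivity
  set η : ℝ := δ / (2 * (ct * V + CC + 1)) with hη
  have hη0 : 0 < η := by positivity
  have hlim : Tendsto (fun j => (A + η) * (ct * (V1 G (h j) +
      G.vol.real {x | 0 < h j x ∧ h j x < 1}) + CC) -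
      (2 * sig 2 * V1 G (h j) + k ^ 2 * V1 G (h j) ^ 2)) atTop
      (𝓝 ((A + η) * (ct * (V + 0) + CC) - (2 * sig 2 * V + k ^ 2 * V ^ 2))) :=
    ((((hV1.add hlay).const_mul ct).add_const CC).const_mul (A + η)).sub
      ((hV1.const_mul (2 * sig 2)).add ((hV1.pow 2).const_mul (k ^ 2)))
  have hval : (A + η) * (ct * (V + 0) + CC) - (2 * sig 2 * V + k ^ 2 * V ^ 2) < δ := by
    have e1 : η * (ct * V + CC) < δ := by
      rw [hη, div_mul_eq_mul_div, div_lt_iff₀ (by positivity)]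
      have : 0 ≤ δ * (ct * V + CC) := mul_nonneg hδ.le hB
      linarith only [this, hδ]
    rw [add_zero]
    linarith only [e1, halg]
  filter_upwards [hper η hη0, hlim.eventually (gt_mem_nhds hval)] with j hj1 hj2
  have ht := rtotal hk hG hct (hh j) (hc j) hCC0 hCC (N := nu G (h j)) (fun y => D_eq (h j) y)
    (h0 j)
  have hsig0 : 0 ≤ sig 2 := measureReal_nonneg
  have hV10 : 0 ≤ V1 G (h j) := measureReal_nonneg
  have hb0 : 0 ≤ 2 * sig 2 * V1 G (h j) + k ^ 2 * V1 G (h j) ^ 2 := by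
    clear * - hsig0 hV10
    positivity
  have h3 := ENNReal.le_sub_of_add_le_right ENNReal.ofReal_ne_top ht
  rw [← ENNReal.ofReal_sub _ hb0] at h3
  refine h3.trans (ENNReal.ofReal_le_ofReal ?_)
  have h4 := r_v0_le (G := G) (hc j) (h1 j)
  have h5 : G.per (h j) * (ct * G.vol.real {x | 0 < h j x} + CC) ≤
      (A + η) * (ct * (V1 G (h j) + G.vol.real {x | 0 < h j x ∧ h j x < 1}) + CC) := by
    refine mul_le_mul hj1 ?_ ?_ (add_nonneg hA hη0.le)
    · have := mul_le_mul_of_nonneg_left h4 hct0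
      linarith only [this]
    · have : 0 ≤ G.vol.real {x | 0 < h j x} := measureReal_nonneg
      clear * - hct0 hCC0 this
      positivity
  linarith only [h5, hj2]

/-- A point with small deficit. -/
theorem select {h : ℕ → E 2 → ℝ} (hh : ∀ j, ContDiff ℝ 1 (h j))
    (hc : ∀ j, HasCompactSupport (h j))
    (htot : ∀ δ > 0, ∀ᶠ j in atTop,
      ∫⁻ y, ‖G.D (h j) y‖ₑ * rDD G k ct (h j) (nu G (h j) y) y ∂G.vol ≤ ENNReal.ofReal δ)
    {c : ℝ} (hc0 : 0 < c) (hlow : ∀ᶠ j in atTop, c ≤ ∫ y, ‖G.D (h j) y‖ ∂G.vol) {ε : ℝ}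
    (hε : 0 < ε) (J : ℕ) :
    ∃ j, J ≤ j ∧ ∃ y, G.D (h j) y ≠ 0 ∧
      rDD G k ct (h j) (nu G (h j) y) y ≤ ENNReal.ofReal ε := by
  by_contra hcon
  push Not at hcon
  have hcε : 0 < c * ε / 2 := by positivity
  obtain ⟨j, hj1, hj2, hj3⟩ := ((htot _ hcε).and (hlow.and (eventually_ge_atTop J))).exists
  have hD : Continuous (G.D (h j)) := PairGe.continuous_D G (hh j)
  have hDc : HasCompactSupport fun x => G.D (h j) x := by
    refine ((hc j).fderiv (𝕜 := ℝ)).mono' ?_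
    intro x hx
    refine subset_tsupport _ ?_
    rw [Function.mem_support] at hx ⊢
    intro h0
    apply hx
    unfold TP.Geo.D
    rw [h0, ContinuousLinearMap.zero_comp, map_zero]
  have hDi : Integrable (fun x => G.D (h j) x) G.vol := hD.integrable_of_hasCompactSupport hDc
  have e1 : ∫⁻ y, ‖G.D (h j) y‖ₑ ∂G.vol = ENNReal.ofReal (∫ y, ‖G.D (h j) y‖ ∂G.vol) :=
    (ofReal_integral_norm_eq_lintegral_enorm hDi).symm
  have h2 : ENNReal.ofReal (c * ε) ≤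
      ∫⁻ y, ‖G.D (h j) y‖ₑ * rDD G k ct (h j) (nu G (h j) y) y ∂G.vol := by
    calc ENNReal.ofReal (c * ε) = ENNReal.ofReal c * ENNReal.ofReal ε :=
          ENNReal.ofReal_mul hc0.le
      _ ≤ (∫⁻ y, ‖G.D (h j) y‖ₑ ∂G.vol) * ENNReal.ofReal ε := by
          rw [e1]
          exact mul_le_mul_left (ENNReal.ofReal_le_ofReal hj2) _
      _ = ∫⁻ y, ‖G.D (h j) y‖ₑ * ENNReal.ofReal ε ∂G.vol :=
          (lintegral_mul_const _ hD.enorm.measurable).symm
      _ ≤ _ := by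
          refine lintegral_mono fun y => ?_
          by_cases hy0 : G.D (h j) y = 0
          · simp only [hy0, enorm_zero, zero_mul]
            exact bot_le
          · exact mul_le_mul_right (hcon j hj3 y hy0).le _
  have h3 := h2.trans hj1
  rw [ENNReal.ofReal_le_ofReal_iff hcε.le] at h3
  linarith only [h3, hcε]

end H732

open H732 in
theorem rfs_select {G : Geo 2} {k : ℝ} (hk : 0 ≤ k) (hG : MonoSn G k) {r : ℝ} (hr : 0 < r)
    {h : ℕ → E 2 → ℝ} (hh : ∀ j, ContDiff ℝ 1 (h j)) {L : Set (E 2)} (hL : IsCompact L)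
    (hLs : ∀ j x, x ∉ L → h j x = 0) (h0 : ∀ j x, 0 ≤ h j x) (h1 : ∀ j x, h j x ≤ 1)
    (hper : ∀ δ > 0, ∀ᶠ j in atTop, G.per (h j) ≤ AR 2 k r + δ)
    (hlow : ∀ᶠ j in atTop, AR 2 k r / 2 ≤ G.per (h j))
    (hV1 : Tendsto (fun j => V1 G (h j)) atTop (𝓝 (VR 2 k r)))
    (hlay : Tendsto (fun j => G.vol.real {x | 0 < h j x ∧ h j x < 1}) atTop (𝓝 0)) :
    ∃ (p N₀ : E 2) (j : ℕ → ℕ) (y N : ℕ → E 2), ‖N₀‖ = 1 ∧ Tendsto j atTop atTop ∧
      Tendsto y atTop (𝓝 p) ∧ Tendsto N atTop (𝓝 N₀) ∧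
      (∀ m, G.D (h (j m)) (y m) ≠ 0) ∧
      ∀ m : ℕ, rDD G k (ct k r) (h (j m)) (N m) (y m) ≤ ENNReal.ofReal (1 / ((m : ℝ) + 1)) := by
  have hVpos : 0 < VR 2 k r := by
    have h1 := VR_strictMonoOn (n := 2) (k := k) (by norm_num) hk (mem_Ici.2 le_rfl)
      (mem_Ici.2 hr.le) hr
    rwa [VR_zero] at h1
  have hApos : 0 < AR 2 k r := AR_pos (by norm_num) hk hr
  have hcs : ∀ j, HasCompactSupport (h j) := fun j => HasCompactSupport.intro hL (hLs j)
  have hct := lt_ct hk hr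
  have htot := total_tendsto (G := G) (ct := ct k r) hk hG hct.le (CC := 2 * C2 k r)
    (by have := C2_pos hk hr; positivity) (fun N hN => rCC hk hr hN) hApos.le hVpos.le
    (rbal hk hr) hh hcs h0 h1 hper hV1 hlay
  have hsel : ∀ m : ℕ, ∃ j, m ≤ j ∧ ∃ y, G.D (h j) y ≠ 0 ∧
      rDD G k (ct k r) (h j) (nu G (h j) y) y ≤ ENNReal.ofReal (1 / ((m : ℝ) + 1)) := fun m =>
    select hh hcs htot (half_pos hApos) hlow (by positivity) m
  choose j hj y hD hdd using hsel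
  have hyL : ∀ m, y m ∈ L := by
    intro m
    by_contra hy
    apply hD m
    have h2 : h (j m) =ᶠ[𝓝 (y m)] fun _ => (0 : ℝ) := by
      filter_upwards [hL.isClosed.isOpen_compl.mem_nhds hy] with x hx using hLs _ x hx
    unfold TP.Geo.D
    rw [h2.fderiv_eq, fderiv_const_apply, ContinuousLinearMap.zero_comp, map_zero]
  have hN1 : ∀ m, ‖nu G (h (j m)) (y m)‖ = 1 := fun m => norm_nu (hD m)
  obtain ⟨a, -, φ, hφ, hlim⟩ := (hL.prod (isCompact_sphere (0 : E 2) 1)).tendsto_subseq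
    (x := fun m => (y m, nu G (h (j m)) (y m)))
    (fun m => ⟨hyL m, mem_sphere_zero_iff_norm.2 (hN1 m)⟩)
  rw [Prod.tendsto_iff] at hlim
  refine ⟨a.1, a.2, j ∘ φ, y ∘ φ, fun m => nu G (h (j (φ m))) (y (φ m)), ?_, ?_, hlim.1, hlim.2,
    fun m => hD (φ m), fun m => (hdd (φ m)).trans (ENNReal.ofReal_le_ofReal ?_)⟩
  · refine tendsto_nhds_unique hlim.2.norm ?_
    refine tendsto_const_nhds.congr fun m => ?_
    exact (hN1 (φ m)).symm
  · exact (tendsto_atTop_mono hj tendsto_id).comp hφ.tendsto_atTop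
  · apply one_div_le_one_div_of_le (by positivity)
    have : (m : ℝ) ≤ φ m := by exact_mod_cast hφ.id_le m
    linarith

end Vale.Agent.P219.N2
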